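import Vale.Agent.P333.X.Sum

set_option linter.all false

/-!
P333, ratio `13/6 + ε`: the total length of the representatives (block XAcc).
-/

namespace Vale.Agent.P333.X

open Vale.Agent.P333 Vale.Agent.P333.U Vale.Agent.P333.E Vale.Agent.P333.G Vale.Agent.Lib.PolyTime

namespace AccX

open Vale.Agent.P333.G.AccB SumB

/-! ### rotations -/

theorem prsC_append {δ : Type*} (h y : δ) (a b : List δ) :
    prsC h (a ++ y :: b) = prsC y a ++ prsC h (y :: b) := by
  induction a with
  | nil => rfl
  | cons x r ih =>
    cases r with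
    | nil => rfl
    | cons z r =>
      rw [List.cons_append, List.cons_append, prsC, ← List.cons_append, ih, prsC]
      rfl

theorem cprs_swap {δ : Type*} (d : δ) (a b : List δ) :
    (cprs d (b ++ a)).Perm (cprs d (a ++ b)) := by
  cases a with
  | nil => simp
  | cons x a =>
    cases b with
    | nil => simp
    | cons y b =>
      unfold cprs
      rw [List.cons_append, List.cons_append, List.headD_cons, List.headD_cons,
        ← List.cons_append, ← List.cons_append, prsC_append, prsC_append]
      exact List.perm_append_comm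

theorem cprs_rotate {δ : Type*} (d : δ) (c : List δ) (n : ℕ) :
    (cprs d (c.rotate n)).Perm (cprs d c) := by
  rw [List.rotate_eq_drop_append_take_mod]
  have h := cprs_swap d (c.take (n % c.length)) (c.drop (n % c.length))
  rwa [List.take_append_drop] at h

theorem dW_rotate (d : List ℕ → List ℕ → ℕ) (c : List (List ℕ)) (n : ℕ) :
    dW d (c.rotate n) = dW d c := by
  unfold dW
  exact ((cprs_rotate [] c n).map _).sum_eq

theorem getLastD_snoc' {δ : Type*} (a : List δ) (x d : δ) : (a ++ [x]).getLastD d = x := by
  simp [List.getLastD_eq_getLast?]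

theorem mem_prsC {δ : Type*} (d h : δ) {c : List δ} {e : δ × δ} (he : e ∈ prsC h c) :
    (∃ a b, c = a ++ e.1 :: e.2 :: b) ∨ (c.getLastD d = e.1 ∧ e.2 = h) := by
  induction c with
  | nil => simp [prsC] at he
  | cons x r ih =>
    cases r with
    | nil =>
      simp only [prsC, List.mem_singleton] at he
      subst he
      right
      simp
    | cons y r =>
      simp only [prsC, List.mem_cons] at he
      rcases he with rfl | he
      · left
        exact ⟨[], r, rfl⟩
      · rcases ih he with ⟨a, b, h1⟩ | ⟨h1, h2⟩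
        · left
          exact ⟨x :: a, b, by rw [h1]; rfl⟩
        · right
          refine ⟨?_, h2⟩
          rw [← h1]
          simp [List.getLastD]

/-- Every arc is the closing arc of a rotation. -/
theorem exists_closing {c : List (List ℕ)} {e : List ℕ × List ℕ} (he : e ∈ cprs [] c) :
    ∃ n, (c.rotate n).getLastD [] = e.1 ∧ (c.rotate n).headD [] = e.2 := by
  rcases mem_prsC [] _ he with ⟨a, b, h1⟩ | ⟨h1, h2⟩
  · refine ⟨(a ++ [e.1]).length, ?_⟩
    have h2 : c = (a ++ [e.1]) ++ (e.2 :: b) := by rw [h1]; simp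
    rw [h2, List.rotate_append_length_eq]
    refine ⟨?_, rfl⟩
    rw [← List.append_assoc]
    exact getLastD_snoc' _ _ _
  · refine ⟨0, ?_⟩
    rw [List.rotate_zero]
    exact ⟨h1, h2.symm⟩

theorem foldl_min (l : List ℕ) : ∀ x : ℕ, l.foldl min x ≤ x ∧ (∀ y ∈ l, l.foldl min x ≤ y) ∧
    (l.foldl min x = x ∨ l.foldl min x ∈ l) := by
  induction l with
  | nil => exact fun x => ⟨le_rfl, fun y hy => by simp at hy, Or.inl rfl⟩
  | cons a l ih =>
    intro x
    rw [List.foldl_cons]
    obtain ⟨h1, h2, h3⟩ := ih (min x a)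
    refine ⟨h1.trans (min_le_left _ _), fun y hy => ?_, ?_⟩
    · rcases List.mem_cons.1 hy with rfl | hy
      · exact h1.trans (min_le_right _ _)
      · exact h2 y hy
    · rcases h3 with h3 | h3
      · rcases le_total x a with h | h
        · left
          rw [h3, min_eq_left h]
        · right
          rw [h3, min_eq_right h]
          exact List.mem_cons_self
      · right
        exact List.mem_cons_of_mem _ h3

theorem oMin_le {d : List ℕ → List ℕ → ℕ} {c : List (List ℕ)} {a : List ℕ × List ℕ}
    (ha : a ∈ cprs [] c) : oMin d c ≤ d a.1 a.2 := by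
  unfold oMin
  exact (foldl_min _ _).2.1 _ (List.mem_map.2 ⟨a, ha, rfl⟩)

theorem oMin_mem {d : List ℕ → List ℕ → ℕ} {c : List (List ℕ)} (hc : c ≠ []) :
    ∃ a ∈ cprs [] c, d a.1 a.2 = oMin d c := by
  unfold oMin
  rcases (foldl_min ((cprs [] c).map (fun e => d e.1 e.2)) (dO d c)).2.2 with h | h
  · refine ⟨_, last_mem_cprs c hc, ?_⟩
    rw [h]
    rfl
  · obtain ⟨a, ha, h1⟩ := List.mem_map.1 h
    exact ⟨a, ha, h1⟩

theorem dU_le (U : List Ent) (s t : List ℕ) : dU U s t ≤ ov s t := by
  unfold dU
  split_ifs
  · exact Nat.zero_le _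
  · exact le_rfl

/-- The representative of a circle which is not big. -/
theorem small_len {d : List ℕ → List ℕ → ℕ} (hd : ∀ s t, d s t ≤ ov s t) {c : List (List ℕ)}
    (hc : c ≠ []) (S : List (List ℕ)) (hb : bigC d c = false) :
    (repX S d c).length ≤ 2 * dW d c := by
  unfold repX
  rw [if_neg (by simp [hb])]
  obtain ⟨a, ha, hmin⟩ := oMin_mem (d := d) hc
  obtain ⟨n, h1, h2⟩ := exists_closing ha
  have hl : 0 < c.length := List.length_pos_iff.2 hc
  have h3 : mergeL (c.rotate n) ∈ (List.range c.length).map (fun i => mergeL (c.rotate i)) := by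
    refine List.mem_map.2 ⟨n % c.length, List.mem_range.2 (Nat.mod_lt _ hl), ?_⟩
    rw [List.rotate_mod]
  refine ((foldl_len _ _).2 _ h3).trans ?_
  have hne : c.rotate n ≠ [] := by
    rw [Ne, List.rotate_eq_nil_iff]
    exact hc
  have h4 := merge_le hd hne
  rw [dW_rotate] at h4
  have h5 : dO d (c.rotate n) = oMin d c := by
    unfold dO
    rw [h1, h2, hmin]
  have h6 : oMin d c ≤ dW d c := by
    unfold bigC at hb
    simpa using hb
  omega

/-! ### states -/

section st

variable {Q : ℕ} {S : List (List ℕ)} {s : St}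

theorem circle_ok (hS : Sfree S) (hs : Inv Q S s) {c : List (List ℕ)} (hc : c ∈ s.2)
    (hb : bigC (dU s.1) c = true) : BigOk S c where
  nodup := by
    have h1 : s.2.flatten.Nodup := hs.perm.nodup_iff.2 hS.nodup
    rw [List.nodup_flatten] at h1
    exact h1.1 c hc
  ne := hs.ne c hc
  sub := fun t ht => hs.perm.mem_iff.1 (List.mem_flatten.2 ⟨c, hc, ht⟩)
  big := fun a ha => by
    have h1 := oMin_le (d := dU s.1) ha
    have h2 := dU_le s.1 a.1 a.2
    have h3 := cycW_le_dW (dU_le s.1) (hs.ne c hc)
    unfold bigC at hb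
    rw [decide_eq_true_eq] at hb
    omega

/-- A listed big circle has no gate. -/
theorem no_gate (hS : Sfree S) (hs : Inv Q S s) {c : List (List ℕ)} (hc : c ∈ s.2)
    (hb : bigC (dU s.1) c = true) (hcl : ∀ h ∈ famD S c, h ∈ c) (hsub : ∀ t ∈ c, t ∈ famD S c)
    {e : Ent} (he : e ∈ s.1) (heD : e.1 = famD S c) : e.2.2 = [] := by
  rcases (hs.ent e he).gate with h | h
  · exact h
  · exfalso
    have h1 : e.2.2 ∈ c := hcl _ (heD ▸ h)
    obtain ⟨a, ha, ha1⟩ := exists_cprs h1
    have h2 : a.2 ∈ e.1 := by
      rw [heD]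
      exact hsub _ (mem_cprs ha).2
    have h3 : dU s.1 a.1 a.2 = 0 := by
      unfold dU
      rw [if_pos]
      rw [List.any_eq_true]
      exact ⟨e, he, by simp [ha1, h2]⟩
    have h4 := oMin_le (d := dU s.1) ha
    unfold bigC at hb
    rw [decide_eq_true_eq] at hb
    omega

end st

theorem sum_acc {α : Type*} (Q : ℕ) (l : List α) (a w f : α → ℕ)
    (h : ∀ c ∈ l, Q * a c ≤ Q * (2 * w c + f c) + w c) :
    Q * (l.map a).sum ≤ Q * (2 * (l.map w).sum + (l.map f).sum) + (l.map w).sum := by
  induction l with
  | nil => simp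
  | cons c l ih =>
    have h1 := h c List.mem_cons_self
    have h2 := ih fun b hb => h b (List.mem_cons_of_mem _ hb)
    simp only [List.map_cons, List.sum_cons]
    nlinarith

end AccX

open AccX SumB Vale.Agent.P333.G.AccB

/-- **H3**: total length of the representatives. -/
theorem xAcc (hrep : XRep) (hcl : XClosed) (hli : XListed) : XAcc := by
  classical
  intro asg K Q S s hS hs hT
  have hnd : s.2.flatten.Nodup := hs.perm.nodup_iff.2 hS.nodup
  rw [List.nodup_flatten] at hnd
  have hrs : ∀ c ∈ s.2, bigC (dU s.1) c = true → ∃ e, RepSpec S c e := fun c hc hb =>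
    hrep S c hS (circle_ok hS hs hc hb)
  -- the penalty
  set f : List (List ℕ) → ℕ := fun c =>
    if (bigC (dU s.1) c && listed S s.1 c) = true then pD (famD S c) (perC c) else 0 with hf
  have hpen : (s.2.map f).sum ≤ penU s.1 := by
    set B := s.2.filter (fun c => bigC (dU s.1) c && listed S s.1 c) with hB
    have hBm : ∀ c ∈ B, c ∈ s.2 ∧ bigC (dU s.1) c = true ∧ listed S s.1 c = true := by
      intro c hc
      have h1 := List.mem_filter.1 hc
      rw [Bool.and_eq_true] at h1
      exact ⟨h1.1, h1.2.1, h1.2.2⟩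
    have h1 : (s.2.map f).sum = (B.map (fun c => pD (famD S c) (perC c))).sum := by
      rw [sum_filter (fun c => bigC (dU s.1) c && listed S s.1 c) f s.2]
      have h2 : ((s.2.filter (fun c => !(bigC (dU s.1) c && listed S s.1 c))).map f).sum = 0 := by
        rw [List.sum_eq_zero]
        intro x hx
        obtain ⟨c, hc, rfl⟩ := List.mem_map.1 hx
        have := (List.mem_filter.1 hc).2
        simp only [hf]
        rw [if_neg]
        intro h
        rw [h] at this
        simp at this
      rw [h2, add_zero]
      congr 1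
      refine List.map_congr_left fun c hc => ?_
      have := (List.mem_filter.1 hc).2
      simp only [hf]
      rw [if_pos this]
    have h2 : (B.map (fun c => (famD S c, perC c))).Nodup := by
      rw [List.Nodup, List.pairwise_map]
      refine List.Pairwise.imp_of_mem ?_ (hnd.2.sublist (List.filter_sublist))
      intro b c hb hc hbc heq
      obtain ⟨hb1, hb2, -⟩ := hBm b hb
      obtain ⟨hc1, hc2, -⟩ := hBm c hc
      obtain ⟨x, hx⟩ := List.exists_mem_of_ne_nil b (hs.ne b hb1)
      obtain ⟨m, hm⟩ := hrs b hb1 hb2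
      have h3 := hm.sub x hx
      have h5 : famD S b = famD S c := (Prod.ext_iff.1 heq).1
      rw [h5] at h3
      exact hbc hx (hcl asg K Q S s hS hs hT c hc1 hc2 x h3)
    have h3 : B.map (fun c => (famD S c, perC c)) ⊆
        (s.1.filter (fun e => decide (e.2.2 = []))).map (fun e => (e.1, e.2.1)) := by
      intro x hx
      obtain ⟨c, hc, rfl⟩ := List.mem_map.1 hx
      obtain ⟨hc1, hc2, hc3⟩ := hBm c hc
      unfold listed at hc3
      obtain ⟨e, he, he1⟩ := List.any_eq_true.1 hc3
      rw [Bool.and_eq_true, decide_eq_true_eq, decide_eq_true_eq] at he1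
      obtain ⟨m, hm⟩ := hrs c hc1 hc2
      have h4 := no_gate hS hs hc1 hc2 (hcl asg K Q S s hS hs hT c hc1 hc2) hm.sub he he1.1
      refine List.mem_map.2 ⟨e, List.mem_filter.2 ⟨he, by simp [h4]⟩, ?_⟩
      rw [he1.1, he1.2]
    obtain ⟨l, hl1, hl2⟩ := h2.subperm h3
    have h4 : (B.map (fun c => pD (famD S c) (perC c))).sum =
        (l.map (fun x => pD x.1 x.2)).sum := by
      rw [(hl1.map (fun x : List (List ℕ) × ℕ => pD x.1 x.2)).sum_eq, List.map_map]
      rfl
    have h5 : penU s.1 = (((s.1.filter (fun e => decide (e.2.2 = []))).map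
        (fun e => (e.1, e.2.1))).map (fun x => pD x.1 x.2)).sum := by
      unfold penU
      rw [sum_filter (fun e : Ent => decide (e.2.2 = [])) _ s.1]
      have h6 : ((s.1.filter (fun e : Ent => !decide (e.2.2 = []))).map
          (fun e => if decide (e.2.2 = []) then pD e.1 e.2.1 else 0)).sum = 0 := by
        rw [List.sum_eq_zero]
        intro x hx
        obtain ⟨c, hc, rfl⟩ := List.mem_map.1 hx
        have := (List.mem_filter.1 hc).2
        rw [if_neg (by simpa using this)]
      rw [h6, add_zero, List.map_map]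
      congr 1
      refine List.map_congr_left fun c hc => ?_
      have := (List.mem_filter.1 hc).2
      rw [if_pos this]
      rfl
    rw [h1, h4, h5]
    exact sum_sublist _ hl2
  -- the circles
  have hone : ∀ c ∈ s.2, Q * (repX S (dU s.1) c).length ≤
      Q * (2 * dW (dU s.1) c + f c) + dW (dU s.1) c := by
    intro c hc
    rcases hb : bigC (dU s.1) c with _ | _
    · have h1 := small_len (dU_le s.1) (hs.ne c hc) S hb
      have h2 := Nat.mul_le_mul_left Q h1
      have h3 : Q * (2 * dW (dU s.1) c) ≤ Q * (2 * dW (dU s.1) c + f c) :=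
        Nat.mul_le_mul_left Q (by omega)
      omega
    · obtain ⟨m, hm⟩ := hrs c hc hb
      have h1 : repX S (dU s.1) c = repD (famD S c) (perC c) := by
        unfold repX
        rw [if_pos hb]
      have h2 : (repD (famD S c) (perC c)).length ≤ 2 * perC c + pD (famD S c) (perC c) := by
        unfold pD
        omega
      have h3 := hm.ple
      have h4 := cycW_le_dW (dU_le s.1) (hs.ne c hc)
      rw [h1]
      by_cases hl : listed S s.1 c = true
      · have h5 : f c = pD (famD S c) (perC c) := by
          simp only [hf]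
          rw [if_pos (by simp [hb, hl])]
        rw [h5]
        have h6 : Q * (repD (famD S c) (perC c)).length ≤
            Q * (2 * dW (dU s.1) c + pD (famD S c) (perC c)) := Nat.mul_le_mul_left Q (by omega)
        omega
      · have h5 : Q * pD (famD S c) (perC c) < perC c := by
          rcases hli asg K Q S s hS hs hT c hc hb with h | h
          · exact absurd h hl
          · exact h
        have h6 := Nat.mul_le_mul_left Q h2
        rw [Nat.mul_add] at h6
        have h7 : Q * (2 * perC c) ≤ Q * (2 * dW (dU s.1) c + f c) :=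
          Nat.mul_le_mul_left Q (by omega)
        omega
  have hsum := sum_acc Q s.2 (fun c => (repX S (dU s.1) c).length) (dW (dU s.1)) f hone
  have h1 : ((repsX S s).map List.length).sum =
      (s.2.map (fun c => (repX S (dU s.1) c).length)).sum := by
    unfold repsX
    rw [List.map_map]
    rfl
  rw [h1]
  unfold cC
  refine hsum.trans ?_
  have h2 : Q * (2 * (s.2.map (dW (dU s.1))).sum + (s.2.map f).sum) ≤
      Q * (2 * (s.2.map (dW (dU s.1))).sum + penU s.1) := Nat.mul_le_mul_left Q (by omega)
  omega

end Vale.Agent.P333.X
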