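import Vale.Agent.P333.X.Defs
import Vale.Agent.P333.G.Acc
import Vale.Agent.P333.G.ClaimA

set_option linter.all false

/-!
P333, ratio `13/6 + ε`: the exchange at a big circle whose word contains another string.
-/

namespace Vale.Agent.P333.X

open Vale.Agent.P333 Vale.Agent.P333.U Vale.Agent.P333.E Vale.Agent.P333.G

namespace ExchB

/-- The exchange inequality, for positions. -/
theorem exchange_in {Z : ℕ → ℕ} {t t' h a : List ℕ} {p x : ℕ} (ht : OccAt Z t p)
    (ht' : OccAt Z t' (p + (t.length - ov t t'))) (hh : OccAt Z h x) (h1 : p ≤ x)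
    (h2 : x < p + (t.length - ov t t')) (ha : a ≠ []) (hne : h ≠ [])
    (n1 : ¬ h <:+: t) (n2 : ¬ t <:+: h) (n3 : ¬ t' <:+: h) :
    ov t t' < ov t h ∧ ov t t' + ov a h ≤ ov t h + ov a t' := by
  have hpx : p < x := by
    rcases Nat.lt_or_ge p x with hq | hq
    · exact hq
    · exfalso
      have : p = x := le_antisymm h1 hq
      subst this
      rcases Nat.le_total h.length t.length with h2 | h2
      · exact n1 (hh.prefix_of_le ht h2).isInfix
      · exact n2 (ht.prefix_of_le hh h2).isInfix
  have hend : x + h.length < p + (t.length - ov t t') + t'.length := by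
    by_contra hcon
    exact n3 (infix_of_occ hh ht' (by omega) (by omega))
  have g1 := ht.gap_le hh hpx (Or.inr n1)
  have l1 := ov_le_left t t'
  have l2 := ov_le_left t h
  have l3 := ov_lt_left h ha
  have l4 := ov_lt_right a hne
  refine ⟨by omega, ?_⟩
  by_cases hz : x + ov a h ≤ p + (t.length - ov t t')
  · omega
  · have hk : x + ov a h - (p + (t.length - ov t t')) ≤ ov a t' := by
      apply place_le_ov _ (by omega) (by omega)
      have hsp := ov_spec a h
      apply List.ext_getElem
      · simp only [List.length_drop, List.length_take]; omega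
      · intro i h3 h4
        simp only [List.length_drop] at h3
        rw [List.getElem_drop, List.getElem_take, ht' _ (by
          simp only [List.length_take] at h4; omega)]
        have h5 : a.length - (x + ov a h - (p + (t.length - ov t t'))) + i =
            (a.length - ov a h) + (p + (t.length - ov t t') - x + i) := by omega
        have h6 : p + (t.length - ov t t') - x + i < (a.drop (a.length - ov a h)).length := by
          rw [List.length_drop]; omega
        have h7 : a[a.length - (x + ov a h - (p + (t.length - ov t t'))) + i]'(by omega) =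
            (a.drop (a.length - ov a h))[p + (t.length - ov t t') - x + i] := by
          rw [List.getElem_drop]
          congr 1
        rw [h7]
        simp only [hsp]
        rw [List.getElem_take, hh _ (by omega)]
        congr 1
        omega
    omega

theorem mem_prsC (h : List ℕ) (A : List (List ℕ)) (t : List ℕ) (B : List (List ℕ)) :
    (t, B.headD h) ∈ prsC h (A ++ t :: B) := by
  induction A with
  | nil =>
    cases B with
    | nil => simp [prsC]
    | cons y B => simp [prsC]
  | cons x A ih =>
    obtain ⟨y, r, hy⟩ : ∃ y r, A ++ t :: B = y :: r := by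
      cases A with
      | nil => exact ⟨t, B, rfl⟩
      | cons y A => exact ⟨y, _, rfl⟩
    rw [List.cons_append, hy, prsC, ← hy]
    exact List.mem_cons_of_mem _ ih

/-- The exchange: `h` is contained in the word of the circle `c`, but is not on `c`. -/
theorem exch {S c : List (List ℕ)} (hS : Sfree S) (hc : BigOk S c) {h : List ℕ}
    (hh : h ∈ famD S c) (hn : h ∉ c) :
    ∃ i t t', i < c.length ∧ (c.rotate i).getLastD [] = t ∧ (c.rotate i).headD [] = t' ∧
      (t, t') ∈ cprs [] c ∧ ov t t' < ov t h ∧
      ∀ a, a ≠ [] → ov t t' + ov a h ≤ ov t h + ov a t' := by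
  have hnes : ∀ t ∈ c, t ≠ [] := fun t ht => hS.1 t (hc.sub t ht)
  have hw : 0 < cycW c := cycW_pos hc.ne hnes
  obtain ⟨hhS, a0, ha0⟩ := (AccB.mem_famD hw).1 hh
  have ha : OccAt (cycWord c) h (a0 % cycW c) := OccAt.mod (cycWord_add c) ha0
  have halt : a0 % cycW c < cycW c := Nat.mod_lt _ hw
  generalize a0 % cycW c = x at ha halt
  obtain ⟨y, r, hyr⟩ := List.exists_cons_of_ne_nil hc.ne
  have hex := exists_arc (c.headD []) r y x (by rw [← hyr]; exact halt)
  obtain ⟨A, t, B, e1, e2, e3⟩ := hex
  rw [← hyr] at e1
  have htc : t ∈ c := by rw [e1]; simp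
  have hot : OccAt (cycWord c) t (linW (A ++ [t])) :=
    occ_of_drop hw (by rw [e1]; exact drop_mergeL A t B)
  have hhead : B.headD (c.headD []) = (B ++ (A ++ [t])).headD [] :=
    mem_headD_append (by rw [← e1])
  have hpr : (t, B.headD (c.headD [])) ∈ cprs [] c := by
    have := mem_prsC (c.headD []) A t B
    rw [← e1] at this
    exact this
  set t' := B.headD (c.headD []) with ht'def
  have ht'c : t' ∈ c := by
    rw [ht'def]
    cases B with
    | cons y B => rw [e1]; simp
    | nil => rw [hyr]; simp
  have hot' : OccAt (cycWord c) t' (linW (A ++ [t]) + (t.length - ov t t')) := by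
    cases hB : B with
    | cons y B' =>
      have hy : t' = y := by rw [ht'def, hB]; rfl
      have h1 : c = (A ++ [t]) ++ y :: B' := by rw [e1, hB]; simp
      have h2 : linW ((A ++ [t]) ++ [y]) = linW (A ++ [t]) + (t.length - ov t y) := by
        rw [linW_append (A ++ [t]) [y] (by simp) (by simp)]
        simp [linW]
      rw [hy, ← h2]
      exact occ_of_drop hw (by
        have := drop_mergeL (A ++ [t]) y B'
        rw [← h1] at this
        exact this)
    | nil =>
      have h1 : c = A ++ [t] := by rw [e1, hB]
      have hy : t' = c.headD [] := by rw [ht'def, hB]; rfl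
      have h2 : linW (A ++ [t]) + (t.length - ov t t') = 0 + cycW c := by
        have h3 : c.getLastD [] = t := by rw [h1]; simp
        rw [hy]
        unfold cycW cycO
        rw [h3, ← h1]
        omega
      rw [h2, hy]
      apply OccAt.add (cycWord_add c)
      apply occ_of_drop hw
      rw [List.drop_zero]
      exact headD_prefix_mergeL c
  have r1 : c.rotate (A ++ [t]).length = B ++ (A ++ [t]) := by
    have : c = (A ++ [t]) ++ B := by rw [e1]; simp
    conv_lhs => rw [this]
    exact List.rotate_append_length_eq _ _
  have la1 : (B ++ (A ++ [t])).getLastD [] = t := by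
    rw [getLastD_append_ne _ _ (by simp), getLastD_append_ne _ _ (by simp)]; simp
  have hfree : ∀ u ∈ c, ¬ u <:+: h ∧ ¬ h <:+: u := by
    intro u hu
    have hus : u ≠ h := by rintro rfl; exact hn hu
    haveI : Std.Symm (fun s t : List ℕ => ¬ s <:+: t ∧ ¬ t <:+: s) :=
      ⟨fun a b h => ⟨h.2, h.1⟩⟩
    exact hS.2.forall (hc.sub u hu) hhS hus
  refine ⟨(A ++ [t]).length % c.length, t, t', Nat.mod_lt _ (List.length_pos_of_ne_nil hc.ne),
    ?_, ?_, hpr, ?_, ?_⟩
  · rw [List.rotate_mod, r1, la1]
  · rw [List.rotate_mod, r1, ← hhead]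
  · exact (exchange_in (a := t) hot hot' ha e2 e3 (hnes t htc) (hS.1 h hhS)
      (hfree t htc).2 (hfree t htc).1 (hfree t' ht'c).1).1
  · intro a hane
    exact (exchange_in hot hot' ha e2 e3 hane (hS.1 h hhS)
      (hfree t htc).2 (hfree t htc).1 (hfree t' ht'c).1).2

end ExchB

end Vale.Agent.P333.X
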