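import Vale.Agent.P333.X.Defs
import Vale.Agent.P333.G.Acc

set_option linter.all false

/-!
P333, ratio `13/6 + ε`: big circles of terminal states are listed or small (block L).
-/

namespace Vale.Agent.P333.X

open Vale.Agent.P333 Vale.Agent.P333.U Vale.Agent.P333.E Vale.Agent.P333.G

namespace ListedB

theorem foldl_min_le (l : List ℕ) : ∀ a : ℕ, l.foldl min a ≤ a ∧ ∀ x ∈ l, l.foldl min a ≤ x := by
  induction l with
  | nil => intro a; simp
  | cons b l ih =>
    intro a
    obtain ⟨h1, h2⟩ := ih (min a b)
    rw [List.foldl_cons]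
    refine ⟨h1.trans (min_le_left _ _), fun x hx => ?_⟩
    rcases List.mem_cons.1 hx with rfl | hx
    · exact h1.trans (min_le_right _ _)
    · exact h2 x hx

theorem oMin_le (d : List ℕ → List ℕ → ℕ) (c : List (List ℕ)) {e : List ℕ × List ℕ}
    (he : e ∈ cprs [] c) : oMin d c ≤ d e.1 e.2 := by
  unfold oMin
  exact (foldl_min_le _ _).2 _ (List.mem_map.2 ⟨e, he, rfl⟩)

theorem dU_le (U : List Ent) (s t : List ℕ) : dU U s t ≤ ov s t := by
  unfold dU
  split_ifs
  · exact Nat.zero_le _
  · exact le_rfl

theorem dU_eq_of_pos {U : List Ent} {s t : List ℕ} (h : 0 < dU U s t) : dU U s t = ov s t := by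
  unfold dU at h ⊢
  split_ifs at h ⊢
  · omega
  · rfl

theorem dU_snoc (U : List Ent) (D : List (List ℕ)) (p : ℕ) :
    dU (U ++ [(D, p, [])]) = dU U := by
  funext s t
  by_cases hs : s = []
  · subst hs
    have h1 := dU_le (U ++ [(D, p, [])]) [] t
    have h2 := dU_le U [] t
    rw [ov_nil_left] at h1 h2
    omega
  · unfold dU
    have : ((U ++ [((D, p, []) : Ent)]).any
        (fun e => decide (e.2.2 = s) && decide (t ∈ e.1))) =
        U.any (fun e => decide (e.2.2 = s) && decide (t ∈ e.1)) := by
      rw [List.any_append]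
      have hs' : ¬ ([] : List ℕ) = s := fun h => hs h.symm
      simp [hs']
    rw [this]

/-- The overlaps of a big circle are not closed. -/
theorem big_eq {U : List Ent} {c : List (List ℕ)} (hb : bigC (dU U) c = true)
    {e : List ℕ × List ℕ} (he : e ∈ cprs [] c) : dU U e.1 e.2 = ov e.1 e.2 := by
  have h1 : dW (dU U) c < oMin (dU U) c := by simpa [bigC] using hb
  have h2 := oMin_le (dU U) c he
  exact dU_eq_of_pos (by omega)

theorem big_dW {U : List Ent} {c : List (List ℕ)} (hc : c ≠ []) (hb : bigC (dU U) c = true) :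
    dW (dU U) c = cycW c := by
  rw [AccB.cycW_eq c hc, dW]
  congr 1
  exact List.map_congr_left fun e he => by rw [big_eq hb he]

theorem bigOk {Q : ℕ} {S : List (List ℕ)} {s : St} (hS : Sfree S) (hI : Inv Q S s)
    {c : List (List ℕ)} (hc : c ∈ s.2) (hb : bigC (dU s.1) c = true) : BigOk S c := by
  have hne := hI.ne c hc
  refine ⟨?_, hne, ?_, ?_⟩
  · have h : s.2.flatten.Nodup := hI.perm.nodup_iff.2 (Sfree.nodup hS)
    exact (List.nodup_flatten.1 h).1 c hc
  · intro t ht
    exact hI.perm.mem_iff.1 (List.mem_flatten.2 ⟨c, hc, ht⟩)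
  · intro a ha
    rw [← big_eq hb ha, ← big_dW hne hb]
    have h1 : dW (dU s.1) c < oMin (dU s.1) c := by simpa [bigC] using hb
    exact lt_of_lt_of_le h1 (oMin_le _ _ ha)

theorem infix_flatten {S : List (List ℕ)} {t : List ℕ} (h : t ∈ S) : t <:+: S.flatten := by
  obtain ⟨A, B, rfl⟩ := List.append_of_mem h
  exact ⟨A.flatten, B.flatten, by simp⟩

theorem length_le_pAll {Q : ℕ} {S : List (List ℕ)} {U : List Ent} (h : ∀ e ∈ U, EOk Q S e) :
    U.length ≤ pAll U := by
  induction U with
  | nil => simp [pAll]
  | cons e U ih =>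
    have h1 := ih fun e he => h e (List.mem_cons_of_mem _ he)
    have h2 := h e List.mem_cons_self
    have h3 : 0 < pD e.1 e.2.1 := by
      obtain ⟨c, hc, he1, he2⟩ := h2.wit
      have hp : 0 < e.2.1 := by rw [he2]; exact Nat.succ_pos _
      have := h2.large
      rcases Nat.eq_zero_or_pos (pD e.1 e.2.1) with h0 | h0
      · rw [h0] at this; omega
      · exact h0
    simp only [pAll, List.map_cons, List.sum_cons, List.length_cons] at h1 ⊢
    omega

end ListedB

open ListedB in
theorem xListed (hsum : XSum) : XListed := by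
  intro asg K Q S s hS hI hT c hc hb
  by_contra hcon
  rw [not_or, not_lt] at hcon
  obtain ⟨hl, hp⟩ := hcon
  set s' : St := (s.1 ++ [(famD S c, perC c, [])], s.2) with hs'
  have hbig := bigOk hS hI hc hb
  have hmem : s' ∈ cands asg K Q S s := by
    unfold cands cand3
    refine List.mem_append_right _ (List.mem_map.2 ⟨c, ?_, rfl⟩)
    rw [List.mem_filter]
    refine ⟨hc, ?_⟩
    have hl' : listed S s.1 c = false := by simpa using hl
    simp [hb, hl', hp]
  have hI' : Inv Q S s' := by
    refine ⟨hI.perm, hI.ne, ?_, ?_⟩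
    · intro e he
      rcases List.mem_append.1 he with he | he
      · exact hI.ent e he
      · rw [List.mem_singleton] at he
        subst he
        exact ⟨⟨c, hbig, rfl, rfl⟩, Or.inl rfl, hp⟩
    · rw [hs']
      simp only [List.map_append, List.map_cons, List.map_nil]
      rw [List.nodup_append]
      refine ⟨hI.nodup, by simp, ?_⟩
      intro a ha b hb' hab
      rw [List.mem_singleton] at hb'
      subst hb'
      subst hab
      obtain ⟨e, he, heq⟩ := List.mem_map.1 ha
      have h1 : e.1 = famD S c := (Prod.mk.inj heq).1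
      have h2 : e.2.1 = perC c := (Prod.mk.inj heq).2
      apply hl
      unfold listed
      rw [List.any_eq_true]
      exact ⟨e, he, by simp [h1, h2]⟩
  have hbd := hsum Q S s' S.flatten hS hI' (fun t ht => infix_flatten ht)
  have hlen := length_le_pAll hI'.ent
  have hpall : pAll s'.1 = pAll s.1 + pD (famD S c) (perC c) := by
    simp [hs', pAll]
  have hlen' : s'.1.length = s.1.length + 1 := by simp [hs']
  have hphi : phi s' = phi s + pD (famD S c) (perC c) := by
    have h1 : cC s' = cC s := by
      unfold cC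
      rw [hs']
      simp only [dU_snoc]
    have h2 : penU s'.1 = penU s.1 + pD (famD S c) (perC c) := by
      simp [hs', penU]
    unfold phi
    rw [h1, h2]
    omega
  have hm := hT s' hmem
  unfold meas at hm
  rw [hphi, hlen'] at hm
  have h3 : s'.2 = s.2 := rfl
  rw [h3] at hm
  obtain ⟨r, hr⟩ : ∃ r, S.flatten.length - s.1.length = r + 1 :=
    ⟨S.flatten.length - s.1.length - 1, by omega⟩
  have hr' : S.flatten.length - (s.1.length + 1) = r := by omega
  rw [hr, hr'] at hm
  have hpd : pD (famD S c) (perC c) ≤ S.flatten.length := by omega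
  have h4 : pD (famD S c) (perC c) * (S.length + 1) ≤ S.flatten.length * (S.length + 1) :=
    Nat.mul_le_mul_right _ hpd
  have h5 : (r + 1) * ((S.flatten.length + 1) * (S.length + 1)) =
      r * ((S.flatten.length + 1) * (S.length + 1)) + S.flatten.length * (S.length + 1) +
        (S.length + 1) := by ring
  have h6 : (phi s + pD (famD S c) (perC c)) * (S.length + 1) =
      phi s * (S.length + 1) + pD (famD S c) (perC c) * (S.length + 1) := by ring
  omega

end Vale.Agent.P333.X
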