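import Mathlib
import Vale.Agent.P333.X.Listed
import Vale.Agent.P333.G.Base

set_option linter.all false

/-!
P333, ratio `13/6 + ε`: the cost of a merge with moved gates.
-/

namespace Vale.Agent.P333.X.RegC

open Vale.Agent.P333 Vale.Agent.P333.U Vale.Agent.P333.E Vale.Agent.P333.G Vale.Agent.Lib.PolyTime

/-! ### Cyclic pairs -/

/-- The consecutive pairs. -/
def ini {δ : Type*} : List δ → List (δ × δ)
  | [] => []
  | [_] => []
  | x :: y :: r => (x, y) :: ini (y :: r)

theorem prsC_ini {δ : Type*} (d h : δ) {c : List δ} (hc : c ≠ []) :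
    prsC h c = ini c ++ [(c.getLastD d, h)] := by
  induction c with
  | nil => exact absurd rfl hc
  | cons x r ih =>
    cases r with
    | nil => simp [prsC, ini]
    | cons y r =>
      have h3 : (x :: y :: r).getLastD d = (y :: r).getLastD d := by simp [List.getLastD]
      rw [h3, prsC, ini, List.cons_append, ih (by simp)]

theorem ini_append {δ : Type*} (d : δ) {A B : List δ} (hA : A ≠ []) (hB : B ≠ []) :
    ini (A ++ B) = ini A ++ (A.getLastD d, B.headD d) :: ini B := by
  induction A with
  | nil => exact absurd rfl hA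
  | cons x r ih =>
    cases r with
    | nil =>
      cases B with
      | nil => exact absurd rfl hB
      | cons z B => simp [ini]
    | cons y r =>
      have h3 : (x :: y :: r).getLastD d = (y :: r).getLastD d := by simp [List.getLastD]
      rw [h3]
      simp only [List.cons_append, ini]
      rw [← List.cons_append, ih (by simp)]

theorem getLastD_append {δ : Type*} (d : δ) {A B : List δ} (hB : B ≠ []) :
    (A ++ B).getLastD d = B.getLastD d := by
  rw [List.getLastD_eq_getLast?, List.getLastD_eq_getLast?, List.getLast?_append]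
  cases h : B.getLast? with
  | none => exact absurd (List.getLast?_eq_none_iff.1 h) hB
  | some x => simp

theorem headD_append {δ : Type*} (d : δ) {A B : List δ} (hA : A ≠ []) :
    (A ++ B).headD d = A.headD d := by
  cases A with
  | nil => exact absurd rfl hA
  | cons x r => rfl

theorem cprs_ini {δ : Type*} (d : δ) {c : List δ} (hc : c ≠ []) :
    cprs d c = ini c ++ [(c.getLastD d, c.headD d)] := prsC_ini d _ hc

theorem cprs_append {δ : Type*} (d : δ) {A B : List δ} (hA : A ≠ []) (hB : B ≠ []) :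
    cprs d (A ++ B) = ini A ++ (A.getLastD d, B.headD d) :: (ini B ++
      [(B.getLastD d, A.headD d)]) := by
  rw [cprs_ini d (by simp [hA]), ini_append d hA hB, getLastD_append d hB, headD_append d hA]
  simp

theorem cprs_rotate {δ : Type*} (d : δ) (c : List δ) (n : ℕ) :
    (cprs d (c.rotate n)).Perm (cprs d c) := by
  obtain ⟨m, hm, h⟩ := rotate_eq_rotA c n
  rw [h]
  unfold rotA
  by_cases h1 : c.drop m = []
  · have h2 := List.take_append_drop m c
    rw [h1, List.append_nil] at h2
    rw [h1, h2, List.nil_append]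
  by_cases h2 : c.take m = []
  · have h3 := List.take_append_drop m c
    rw [h2, List.nil_append] at h3
    rw [h2, h3, List.append_nil]
  conv_rhs => rw [← List.take_append_drop m c]
  rw [cprs_append d h1 h2, cprs_append d h2 h1]
  have e1 : ini (c.drop m) ++ ((c.drop m).getLastD d, (c.take m).headD d) ::
      (ini (c.take m) ++ [((c.take m).getLastD d, (c.drop m).headD d)]) =
      (ini (c.drop m) ++ [((c.drop m).getLastD d, (c.take m).headD d)]) ++
      (ini (c.take m) ++ [((c.take m).getLastD d, (c.drop m).headD d)]) := by simp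
  have e2 : ini (c.take m) ++ ((c.take m).getLastD d, (c.drop m).headD d) ::
      (ini (c.drop m) ++ [((c.drop m).getLastD d, (c.take m).headD d)]) =
      (ini (c.take m) ++ [((c.take m).getLastD d, (c.drop m).headD d)]) ++
      (ini (c.drop m) ++ [((c.drop m).getLastD d, (c.take m).headD d)]) := by simp
  rw [e1, e2]
  exact List.perm_append_comm

theorem dW_rotate (d : List ℕ → List ℕ → ℕ) (c : List (List ℕ)) (n : ℕ) :
    dW d (c.rotate n) = dW d c := by
  unfold dW
  exact ((cprs_rotate [] c n).map _).sum_eq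

theorem end_of_noExit {P : List ℕ → Prop} {h : List ℕ} {c : List (List ℕ)}
    (hx : ∀ a ∈ prsC h c, P a.1 → P a.2) {x : List ℕ} (hxc : x ∈ c) (hP : P x) : P h := by
  induction c generalizing x with
  | nil => simp at hxc
  | cons y r ih =>
    cases r with
    | nil =>
      rw [List.mem_singleton] at hxc
      subst hxc
      exact hx (x, h) (by simp [prsC]) hP
    | cons z r =>
      have hx' : ∀ a ∈ prsC h (z :: r), P a.1 → P a.2 := fun a ha => hx a (by
        simp only [prsC, List.mem_cons]
        exact Or.inr ha)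
      rcases List.mem_cons.1 hxc with rfl | hxc
      · exact ih hx' (x := z) (by simp) (hx (x, z) (by simp [prsC]) hP)
      · exact ih hx' hxc hP

theorem all_of_noExit' {P : List ℕ → Prop} {h : List ℕ} {c : List (List ℕ)}
    (hx : ∀ a ∈ prsC h c, P a.1 → P a.2) (h0 : P (c.headD [])) : ∀ x ∈ c, P x := by
  induction c with
  | nil => simp
  | cons y r ih =>
    cases r with
    | nil =>
      intro x hxc
      rw [List.mem_singleton] at hxc
      subst hxc
      exact h0
    | cons z r =>
      have hx' : ∀ a ∈ prsC h (z :: r), P a.1 → P a.2 := fun a ha => hx a (by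
        simp only [prsC, List.mem_cons]
        exact Or.inr ha)
      have h1 : P z := hx (y, z) (by simp [prsC]) h0
      intro x hxc
      rcases List.mem_cons.1 hxc with rfl | hxc
      · exact h0
      · exact ih hx' h1 x hxc

/-- Without exit, everything is in the class. -/
theorem all_of_noExit {P : List ℕ → Prop} {c : List (List ℕ)}
    (hx : ∀ a ∈ cprs [] c, P a.1 → P a.2) {x : List ℕ} (hxc : x ∈ c) (hP : P x) :
    ∀ y ∈ c, P y :=
  all_of_noExit' hx (end_of_noExit hx hxc hP)

/-! ### Moved gates -/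

/-- Closed arcs. -/
def Cl (U : List Ent) (x y : List ℕ) : Prop := ∃ e ∈ U, e.2.2 = x ∧ y ∈ e.1

theorem dU_cl {U : List Ent} {x y : List ℕ} (h : Cl U x y) : dU U x y = 0 := by
  obtain ⟨e, he, h1, h2⟩ := h
  unfold dU
  rw [if_pos]
  rw [List.any_eq_true]
  exact ⟨e, he, by simp [h1, h2]⟩

theorem dU_not_cl {U : List Ent} {x y : List ℕ} (h : ¬ Cl U x y) : dU U x y = ov x y := by
  unfold dU
  rw [if_neg]
  rw [List.any_eq_true]
  rintro ⟨e, he, h1⟩
  simp only [Bool.and_eq_true, decide_eq_true_eq] at h1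
  exact h ⟨e, he, h1.1, h1.2⟩

theorem regate_fst (m : List (List ℕ)) (e : Ent) : (regate m e).1 = e.1 := by
  unfold regate
  split_ifs
  · cases (cprs [] m).find? (fun a => decide (a.1 ∈ e.1) && !decide (a.2 ∈ e.1)) <;> rfl
  · rfl

theorem regate_snd (m : List (List ℕ)) (e : Ent) : (regate m e).2.1 = e.2.1 := by
  unfold regate
  split_ifs
  · cases (cprs [] m).find? (fun a => decide (a.1 ∈ e.1) && !decide (a.2 ∈ e.1)) <;> rfl
  · rfl

/-- The cases of `regate`. -/
theorem regate_cases (m : List (List ℕ)) (e : Ent) :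
    (regate m e = e ∧ ((∀ a ∈ cprs [] m, a.1 = e.2.2 → a.2 ∉ e.1) ∨
      (∀ a ∈ cprs [] m, a.1 ∈ e.1 → a.2 ∈ e.1))) ∨
    ((∃ a ∈ cprs [] m, a.1 = e.2.2) ∧
      ∃ a ∈ cprs [] m, a.1 ∈ e.1 ∧ a.2 ∉ e.1 ∧ regate m e = (e.1, e.2.1, a.1)) := by
  unfold regate
  split_ifs with h
  · rw [List.any_eq_true] at h
    obtain ⟨a, ha, h1⟩ := h
    simp only [Bool.and_eq_true, decide_eq_true_eq] at h1
    rcases hf : (cprs [] m).find? (fun a => decide (a.1 ∈ e.1) && !decide (a.2 ∈ e.1)) with _ | b
    · left
      refine ⟨by rw [hf]; rfl, Or.inr fun b hb h2 => ?_⟩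
      have := List.find?_eq_none.1 hf b hb
      by_contra h3
      apply this
      simp [h2, h3]
    · right
      refine ⟨⟨a, ha, h1.1⟩, b, List.mem_of_find?_eq_some hf, ?_⟩
      have := List.find?_some hf
      simp only [Bool.and_eq_true, decide_eq_true_eq, Bool.not_eq_true',
        decide_eq_false_iff_not] at this
      exact ⟨this.1, this.2, by rw [hf]; rfl⟩
  · left
    refine ⟨rfl, Or.inl fun a ha h1 h2 => h ?_⟩
    rw [List.any_eq_true]
    exact ⟨a, ha, by simp [h1, h2]⟩

theorem fst_inj {m : List (List ℕ)} (hm : m.Nodup) {a b : List ℕ × List ℕ}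
    (ha : a ∈ cprs [] m) (hb : b ∈ cprs [] m) (h : a.1 = b.1) : a = b := by
  have h1 : ((cprs [] m).map Prod.fst).Nodup := by rw [cprs_fst]; exact hm
  exact List.inj_on_of_nodup_map h1 ha hb h

/-- Closed arcs of the merged circle. -/
theorem cl_on {U : List Ent} {m : List (List ℕ)} (hm : m.Nodup) {a : List ℕ × List ℕ}
    (ha : a ∈ cprs [] m) (h : Cl (U.map (regate m)) a.1 a.2) :
    ∃ e ∈ U, e.2.2 = a.1 ∧ a.2 ∈ e.1 ∧ ∀ b ∈ cprs [] m, b.1 ∈ e.1 → b.2 ∈ e.1 := by
  obtain ⟨e', he', h1, h2⟩ := h
  obtain ⟨e, he, rfl⟩ := List.mem_map.1 he'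
  refine ⟨e, he, ?_⟩
  rcases regate_cases m e with ⟨h3, h4⟩ | ⟨-, b, hb, h4, h5, h6⟩
  · rw [h3] at h1 h2
    refine ⟨h1, h2, ?_⟩
    rcases h4 with h4 | h4
    · exact absurd h2 (h4 a ha h1.symm)
    · exact h4
  · rw [h6] at h1 h2
    have := fst_inj hm hb ha h1
    subst this
    exact absurd h2 h5

/-- Closed arcs of the other circles. -/
theorem cl_off {U : List Ent} {m : List (List ℕ)} {x y : List ℕ}
    (hx : x ∉ m) (h : Cl (U.map (regate m)) x y) : Cl U x y := by
  obtain ⟨e', he', h1, h2⟩ := h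
  obtain ⟨e, he, rfl⟩ := List.mem_map.1 he'
  rcases regate_cases m e with ⟨h3, -⟩ | ⟨-, b, hb, h4, h5, h6⟩
  · rw [h3] at h1 h2
    exact ⟨e, he, h1, h2⟩
  · rw [h6] at h1
    exfalso
    apply hx
    rw [← h1]
    exact (AccB.mem_cprs hb).1

theorem penU_regate (U : List Ent) {m : List (List ℕ)} (hm : ∀ x ∈ m, x ≠ []) :
    penU (U.map (regate m)) = penU U := by
  unfold penU
  rw [List.map_map]
  congr 1
  refine List.map_congr_left fun e _ => ?_
  simp only [Function.comp_apply]
  rcases regate_cases m e with ⟨h3, -⟩ | ⟨⟨c, hc, h7⟩, b, hb, h4, h5, h6⟩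
  · rw [h3]
  · have h8 := hm _ (AccB.mem_cprs hb).1
    have h9 := hm _ (AccB.mem_cprs hc).1
    rw [h7] at h9
    rw [h6]
    simp [h8, h9]

/-! ### The merge -/

theorem sum_map_le {α : Type*} {f g : α → ℕ} {K : List α} (h : ∀ a ∈ K, f a ≤ g a) :
    (K.map f).sum ≤ (K.map g).sum := List.sum_le_sum h

variable {U : List Ent} {A B : List (List ℕ)}

/-- The cost of the merged circle. -/
theorem dW_merge (hA : A ≠ []) (hB : B ≠ []) (hn : (A ++ B).Nodup)
    (hb : bigC (dU U) A = true)
    (h1 : ov (A.getLastD []) (A.headD []) ≤ ov (A.getLastD []) (B.headD []))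
    (h2 : ov (A.getLastD []) (A.headD []) + ov (B.getLastD []) (B.headD []) ≤
      ov (A.getLastD []) (B.headD []) + ov (B.getLastD []) (A.headD [])) :
    dW (dU (U.map (regate (A ++ B)))) (A ++ B) ≤ dW (dU U) A + dW (dU U) B := by
  have hcp := cprs_append ([] : List ℕ) hA hB
  have hiA : ∀ a ∈ ini A, a.1.length - dU (U.map (regate (A ++ B))) a.1 a.2 ≤
      a.1.length - dU U a.1 a.2 := by
    intro a ha
    have ham : a ∈ cprs [] (A ++ B) := by rw [hcp]; simp [ha]
    by_cases h : Cl (U.map (regate (A ++ B))) a.1 a.2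
    · obtain ⟨e, he, h3, h4, -⟩ := cl_on hn ham h
      rw [dU_cl (U := U) ⟨e, he, h3, h4⟩]
      omega
    · rw [dU_not_cl h]
      have := ListedB.dU_le U a.1 a.2
      omega
  have hiB : ∀ a ∈ ini B, a.1.length - dU (U.map (regate (A ++ B))) a.1 a.2 ≤
      a.1.length - dU U a.1 a.2 := by
    intro a ha
    have ham : a ∈ cprs [] (A ++ B) := by rw [hcp]; simp [ha]
    by_cases h : Cl (U.map (regate (A ++ B))) a.1 a.2
    · obtain ⟨e, he, h3, h4, -⟩ := cl_on hn ham h
      rw [dU_cl (U := U) ⟨e, he, h3, h4⟩]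
      omega
    · rw [dU_not_cl h]
      have := ListedB.dU_le U a.1 a.2
      omega
  have hlA : A.getLastD [] ∈ A := by
    have := AccB.last_mem_cprs A hA
    exact (AccB.mem_cprs this).1
  have hlB : B.getLastD [] ∈ B := by
    have := AccB.last_mem_cprs B hB
    exact (AccB.mem_cprs this).1
  have hhA : A.headD [] ∈ A := (AccB.mem_cprs (AccB.last_mem_cprs A hA)).2
  have hhB : B.headD [] ∈ B := (AccB.mem_cprs (AccB.last_mem_cprs B hB)).2
  have htt := ListedB.big_eq hb (AccB.last_mem_cprs A hA)
  have htp : 0 < dU U (A.getLastD []) (A.headD []) := by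
    have h3 : dW (dU U) A < oMin (dU U) A := by simpa [bigC] using hb
    have h4 := ListedB.oMin_le (dU U) A (AccB.last_mem_cprs A hA)
    simp only at h4
    omega
  have hm1 : (A.getLastD [], B.headD []) ∈ cprs [] (A ++ B) := by rw [hcp]; simp
  have hm2 : (B.getLastD [], A.headD []) ∈ cprs [] (A ++ B) := by rw [hcp]; simp
  have hth : ¬ Cl (U.map (regate (A ++ B))) (A.getLastD []) (B.headD []) := by
    intro h
    obtain ⟨e, he, h3, h4, h5⟩ := cl_on hn hm1 h
    have h6 := all_of_noExit h5 (x := B.headD []) (List.mem_append_right _ hhB) h4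
    have h7 := h6 (A.headD []) (List.mem_append_left _ hhA)
    have h8 := dU_cl (U := U) (x := A.getLastD []) (y := A.headD []) ⟨e, he, h3, h7⟩
    omega
  have e1 := dU_not_cl hth
  have key : ((A.getLastD []).length - dU (U.map (regate (A ++ B))) (A.getLastD []) (B.headD [])) +
      ((B.getLastD []).length - dU (U.map (regate (A ++ B))) (B.getLastD []) (A.headD [])) ≤
      ((A.getLastD []).length - dU U (A.getLastD []) (A.headD [])) +
      ((B.getLastD []).length - dU U (B.getLastD []) (B.headD [])) := by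
    rw [e1, htt]
    simp only
    have l1 := ov_le_left (A.getLastD []) (A.headD [])
    have l2 := ov_le_left (A.getLastD []) (B.headD [])
    have l3 := ov_le_left (B.getLastD []) (A.headD [])
    have l4 := ov_le_left (B.getLastD []) (B.headD [])
    by_cases h : Cl (U.map (regate (A ++ B))) (B.getLastD []) (A.headD [])
    · obtain ⟨e, he, h3, h4, h5⟩ := cl_on hn hm2 h
      have h6 := all_of_noExit h5 (x := A.headD []) (List.mem_append_left _ hhA) h4
      have h7 := h6 (B.headD []) (List.mem_append_right _ hhB)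
      have h8 := dU_cl (U := U) (x := B.getLastD []) (y := B.headD []) ⟨e, he, h3, h7⟩
      rw [h8, dU_cl h]
      omega
    · rw [dU_not_cl h]
      have := ListedB.dU_le U (B.getLastD []) (B.headD [])
      omega
  have sA := List.sum_le_sum hiA
  have sB := List.sum_le_sum hiB
  have t1 : dW (dU (U.map (regate (A ++ B)))) (A ++ B) =
      ((ini A).map (fun e => e.1.length - dU (U.map (regate (A ++ B))) e.1 e.2)).sum +
      ((ini B).map (fun e => e.1.length - dU (U.map (regate (A ++ B))) e.1 e.2)).sum +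
      (((A.getLastD []).length - dU (U.map (regate (A ++ B))) (A.getLastD []) (B.headD [])) +
      ((B.getLastD []).length - dU (U.map (regate (A ++ B))) (B.getLastD []) (A.headD []))) := by
    unfold dW
    rw [hcp]
    simp only [List.map_append, List.map_cons, List.map_nil, List.sum_append, List.sum_cons,
      List.sum_nil]
    omega
  have t2 : dW (dU U) A = ((ini A).map (fun e => e.1.length - dU U e.1 e.2)).sum +
      ((A.getLastD []).length - dU U (A.getLastD []) (A.headD [])) := by
    unfold dW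
    rw [cprs_ini [] hA]
    simp only [List.map_append, List.map_cons, List.map_nil, List.sum_append, List.sum_cons,
      List.sum_nil]
    omega
  have t3 : dW (dU U) B = ((ini B).map (fun e => e.1.length - dU U e.1 e.2)).sum +
      ((B.getLastD []).length - dU U (B.getLastD []) (B.headD [])) := by
    unfold dW
    rw [cprs_ini [] hB]
    simp only [List.map_append, List.map_cons, List.map_nil, List.sum_append, List.sum_cons,
      List.sum_nil]
    omega
  rw [t1, t2, t3]
  omega

/-- The cost of the other circles. -/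
theorem dW_other {m c : List (List ℕ)} (h : ∀ x ∈ c, x ∉ m) :
    dW (dU (U.map (regate m))) c ≤ dW (dU U) c := by
  unfold dW
  refine List.sum_le_sum fun a ha => ?_
  have hx := h _ (AccB.mem_cprs ha).1
  by_cases h1 : Cl (U.map (regate m)) a.1 a.2
  · rw [dU_cl (cl_off hx h1)]
    omega
  · rw [dU_not_cl h1]
    have := ListedB.dU_le U a.1 a.2
    omega

theorem oMin_mem_or (d : List ℕ → List ℕ → ℕ) (c : List (List ℕ)) (hc : c ≠ []) :
    ∃ a ∈ cprs [] c, oMin d c = d a.1 a.2 := by
  have key : ∀ (l : List ℕ) (x : ℕ), l.foldl min x = x ∨ l.foldl min x ∈ l := by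
    intro l
    induction l with
    | nil => intro x; simp
    | cons y l ih =>
      intro x
      rw [List.foldl_cons]
      rcases ih (min x y) with h | h
      · rw [h]
        rcases min_choice x y with h2 | h2
        · rw [h2]; simp
        · rw [h2]; simp
      · right
        exact List.mem_cons_of_mem _ h
  unfold oMin
  rcases key ((cprs [] c).map (fun e => d e.1 e.2)) (dO d c) with h | h
  · rw [h]
    exact ⟨_, AccB.last_mem_cprs c hc, rfl⟩
  · obtain ⟨a, ha, h2⟩ := List.mem_map.1 h
    exact ⟨a, ha, h2.symm⟩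

theorem oMin_perm (d : List ℕ → List ℕ → ℕ) {c c' : List (List ℕ)} (hc : c ≠ [])
    (h : (cprs [] c).Perm (cprs [] c')) : oMin d c' ≤ oMin d c := by
  obtain ⟨a, ha, h1⟩ := oMin_mem_or d c hc
  rw [h1]
  exact ListedB.oMin_le d c' (h.mem_iff.1 ha)

theorem bigC_rotate (d : List ℕ → List ℕ → ℕ) {c : List (List ℕ)} (hc : c ≠ []) (i : ℕ)
    (h : bigC d c = true) : bigC d (c.rotate i) = true := by
  unfold bigC at h ⊢
  rw [decide_eq_true_eq] at h ⊢
  rw [dW_rotate]
  have hr : c.rotate i ≠ [] := by
    intro h2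
    exact hc (List.rotate_eq_nil_iff.1 h2)
  exact lt_of_lt_of_le h (oMin_perm d hr (cprs_rotate [] c i))

variable {Q : ℕ} {S : List (List ℕ)} {s : St} {c c2 : List (List ℕ)}

theorem perm_two (hc : c ∈ s.2) (hc2 : c2 ∈ s.2) (hne : c ≠ c2) :
    s.2.Perm (c :: c2 :: (s.2.erase c).erase c2) := by
  have h1 : s.2.Perm (c :: s.2.erase c) := List.perm_cons_erase hc
  have h2 : c2 ∈ s.2.erase c := (List.mem_erase_of_ne (Ne.symm hne)).2 hc2
  exact h1.trans ((List.perm_cons_erase h2).cons c)

theorem flat_nodup (hS : Sfree S) (hI : Inv Q S s) (hc : c ∈ s.2) (hc2 : c2 ∈ s.2)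
    (hne : c ≠ c2) (i j : ℕ) :
    ((c.rotate i ++ c2.rotate j) ++ ((s.2.erase c).erase c2).flatten).Nodup := by
  have h1 : s.2.flatten.Nodup := hI.perm.nodup_iff.2 (Sfree.nodup hS)
  have h2 := (perm_two hc hc2 hne).flatten.nodup_iff.1 h1
  have h3 : ((c.rotate i ++ c2.rotate j) ++ ((s.2.erase c).erase c2).flatten).Perm
      (c :: c2 :: (s.2.erase c).erase c2).flatten := by
    rw [List.flatten_cons, List.flatten_cons, ← List.append_assoc]
    exact ((List.rotate_perm c i).append (List.rotate_perm c2 j)).append_right _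
  exact h3.nodup_iff.2 h2

/-- The merge keeps the strings. -/
theorem mrg_perm (hc : c ∈ s.2) (hc2 : c2 ∈ s.2) (hne : c ≠ c2) (i j : ℕ) :
    (mrg s c c2 i j).2.flatten.Perm s.2.flatten := by
  have h3 : ((c.rotate i ++ c2.rotate j) ++ ((s.2.erase c).erase c2).flatten).Perm
      (c :: c2 :: (s.2.erase c).erase c2).flatten := by
    rw [List.flatten_cons, List.flatten_cons, ← List.append_assoc]
    exact ((List.rotate_perm c i).append (List.rotate_perm c2 j)).append_right _
  exact h3.trans (perm_two hc hc2 hne).flatten.symm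

/-- The merge keeps the invariants. -/
theorem mrg_inv (hI : Inv Q S s) (hc : c ∈ s.2) (hc2 : c2 ∈ s.2) (hne : c ≠ c2) (i j : ℕ) :
    Inv Q S (mrg s c c2 i j) where
  perm := (mrg_perm hc hc2 hne i j).trans hI.perm
  ne := by
    intro d hd
    rcases List.mem_cons.1 hd with rfl | hd
    · intro h
      have := (List.append_eq_nil_iff.1 h).1
      exact hI.ne c hc (List.rotate_eq_nil_iff.1 this)
    · exact hI.ne d (List.mem_of_mem_erase (List.mem_of_mem_erase hd))
  ent := by
    intro e' he'
    obtain ⟨e, he, rfl⟩ := List.mem_map.1 he'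
    have h1 := hI.ent e he
    refine ⟨?_, ?_, ?_⟩
    · rw [regate_fst, regate_snd]; exact h1.wit
    · rcases regate_cases (c.rotate i ++ c2.rotate j) e with ⟨h3, -⟩ | ⟨-, b, hb, h4, h5, h6⟩
      · rw [h3]; exact h1.gate
      · rw [h6]; exact Or.inr h4
    · rw [regate_fst, regate_snd]; exact h1.large
  nodup := by
    have : (mrg s c c2 i j).1.map (fun e => (e.1, e.2.1)) = s.1.map (fun e => (e.1, e.2.1)) := by
      unfold mrg
      simp only [List.map_map]
      refine List.map_congr_left fun e _ => ?_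
      simp only [Function.comp_apply, regate_fst, regate_snd]
    rw [this]
    exact hI.nodup

/-- The potential does not increase. -/
theorem phi_mrg (hS : Sfree S) (hI : Inv Q S s) (hc : c ∈ s.2) (hc2 : c2 ∈ s.2) (hne : c ≠ c2)
    (hb : bigC (dU s.1) c = true) (i j : ℕ)
    (h1 : ov ((c.rotate i).getLastD []) ((c.rotate i).headD []) ≤
      ov ((c.rotate i).getLastD []) ((c2.rotate j).headD []))
    (h2 : ov ((c.rotate i).getLastD []) ((c.rotate i).headD []) +
        ov ((c2.rotate j).getLastD []) ((c2.rotate j).headD []) ≤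
      ov ((c.rotate i).getLastD []) ((c2.rotate j).headD []) +
        ov ((c2.rotate j).getLastD []) ((c.rotate i).headD [])) :
    phi (mrg s c c2 i j) ≤ phi s := by
  have hcne := hI.ne c hc
  have hc2ne := hI.ne c2 hc2
  have hr : c.rotate i ≠ [] := fun h => hcne (List.rotate_eq_nil_iff.1 h)
  have hr2 : c2.rotate j ≠ [] := fun h => hc2ne (List.rotate_eq_nil_iff.1 h)
  have hnd := flat_nodup hS hI hc hc2 hne i j
  have hnm : (c.rotate i ++ c2.rotate j).Nodup := (List.nodup_append.1 hnd).1
  have hdis := (List.nodup_append.1 hnd).2.2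
  have hmS : ∀ x ∈ c.rotate i ++ c2.rotate j, x ≠ [] := by
    intro x hx
    apply hS.1
    apply hI.perm.mem_iff.1
    rcases List.mem_append.1 hx with hx | hx
    · exact List.mem_flatten.2 ⟨c, hc, List.mem_rotate.1 hx⟩
    · exact List.mem_flatten.2 ⟨c2, hc2, List.mem_rotate.1 hx⟩
  have e1 := dW_merge (U := s.1) hr hr2 hnm (bigC_rotate _ hcne i hb) h1 h2
  rw [dW_rotate, dW_rotate] at e1
  have e2 : (((s.2.erase c).erase c2).map
      (dW (dU (s.1.map (regate (c.rotate i ++ c2.rotate j)))))).sum ≤
      (((s.2.erase c).erase c2).map (dW (dU s.1))).sum := by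
    refine List.sum_le_sum fun d hd => dW_other fun x hx hxm => ?_
    exact hdis x hxm x (List.mem_flatten.2 ⟨d, hd, hx⟩) rfl
  have e3 : cC s = dW (dU s.1) c + (dW (dU s.1) c2 +
      (((s.2.erase c).erase c2).map (dW (dU s.1))).sum) := by
    unfold cC
    rw [((perm_two hc hc2 hne).map (dW (dU s.1))).sum_eq]
    simp
  have e4 : cC (mrg s c c2 i j) = dW (dU (s.1.map (regate (c.rotate i ++ c2.rotate j))))
      (c.rotate i ++ c2.rotate j) + (((s.2.erase c).erase c2).map
      (dW (dU (s.1.map (regate (c.rotate i ++ c2.rotate j)))))).sum := by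
    unfold cC mrg
    simp
  have e5 : penU (mrg s c c2 i j).1 = penU s.1 := penU_regate s.1 hmS
  unfold phi
  rw [e5]
  omega

/-- The measure drops. -/
theorem meas_mrg_lt (hS : Sfree S) (hI : Inv Q S s) (hc : c ∈ s.2) (hc2 : c2 ∈ s.2)
    (hne : c ≠ c2) (hb : bigC (dU s.1) c = true) (i j : ℕ)
    (h1 : ov ((c.rotate i).getLastD []) ((c.rotate i).headD []) ≤
      ov ((c.rotate i).getLastD []) ((c2.rotate j).headD []))
    (h2 : ov ((c.rotate i).getLastD []) ((c.rotate i).headD []) +
        ov ((c2.rotate j).getLastD []) ((c2.rotate j).headD []) ≤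
      ov ((c.rotate i).getLastD []) ((c2.rotate j).headD []) +
        ov ((c2.rotate j).getLastD []) ((c.rotate i).headD [])) :
    meas S (mrg s c c2 i j) < meas S s := by
  have e1 := phi_mrg hS hI hc hc2 hne hb i j h1 h2
  have e2 := (perm_two hc hc2 hne).length_eq
  have e3 : (mrg s c c2 i j).2.length < s.2.length := by
    rw [e2]
    simp [mrg]
  have e4 : (mrg s c c2 i j).1.length = s.1.length := by simp [mrg]
  unfold meas
  rw [e4]
  have e5 := Nat.mul_le_mul_right (S.length + 1) e1
  omega

end Vale.Agent.P333.X.RegC
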