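import Mathlib
import Vale.Agent.P333.X.RegC
import Vale.Agent.P333.X.Exch

set_option linter.all false

/-!
P333, ratio `13/6 + ε`: big circles of terminal states are closed (Lemma 1).
-/

namespace Vale.Agent.P333.X

open Vale.Agent.P333 Vale.Agent.P333.U Vale.Agent.P333.E Vale.Agent.P333.G Vale.Agent.Lib.PolyTime

theorem headD_rotate_idxOf {c : List (List ℕ)} {h : List ℕ} (hh : h ∈ c) :
    (c.rotate (c.idxOf h)).headD [] = h := by
  have hj : c.idxOf h < c.length := List.idxOf_lt_length_iff.2 hh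
  rw [List.rotate_eq_drop_append_take hj.le, List.drop_eq_getElem_cons hj]
  simp

/-- Lemma 1. -/
theorem xClosed : XClosed := by
  intro asg K Q S s hS hI hT c hc hb h hh
  by_contra hn
  have hbig := ListedB.bigOk hS hI hc hb
  obtain ⟨i, t, t', hi, ht, ht', htt, hlt, hex⟩ := ExchB.exch hS hbig hh hn
  have hhS : h ∈ S := (List.mem_filter.1 hh).1
  obtain ⟨c2, hc2, hhc2⟩ := List.mem_flatten.1 (hI.perm.mem_iff.2 hhS)
  have hne : c ≠ c2 := by
    rintro rfl
    exact hn hhc2
  have hj : c2.idxOf h < c2.length := List.idxOf_lt_length_iff.2 hhc2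
  have hhd := headD_rotate_idxOf hhc2
  have hr2 : c2.rotate (c2.idxOf h) ≠ [] := fun h' =>
    hI.ne c2 hc2 (List.rotate_eq_nil_iff.1 h')
  have ha : (c2.rotate (c2.idxOf h)).getLastD [] ≠ [] := by
    have h1 := (AccB.mem_cprs (AccB.last_mem_cprs _ hr2)).1
    have h2 : (c2.rotate (c2.idxOf h)).getLastD [] ∈ c2 := List.mem_rotate.1 h1
    exact hS.1 _ (hI.perm.mem_iff.1 (List.mem_flatten.2 ⟨c2, hc2, h2⟩))
  have h3 := hex _ ha
  have hm : mrg s c c2 i (c2.idxOf h) ∈ cands asg K Q S s := by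
    unfold cands
    refine List.mem_append_left _ (List.mem_append_right _ ?_)
    unfold cand2
    refine List.mem_flatMap.2 ⟨c, hc, List.mem_flatMap.2 ⟨c2, hc2, ?_⟩⟩
    have : ¬ (decide (c = c2) = true) := by simpa using hne
    rw [if_neg this]
    exact List.mem_flatMap.2 ⟨i, List.mem_range.2 hi, List.mem_map.2
      ⟨c2.idxOf h, List.mem_range.2 hj, rfl⟩⟩
  have h4 := hT _ hm
  have h5 := RegC.meas_mrg_lt hS hI hc hc2 hne hb i (c2.idxOf h)
    (by rw [ht, ht', hhd]; exact hlt.le) (by rw [ht, ht', hhd]; exact h3)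
  omega

end Vale.Agent.P333.X
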