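import Mathlib
import Vale.Agent.P333.G.Defs

set_option linter.all false

/-!
P333, ratio `13/6 + ε`: definitions and the statements of the parts.
-/

namespace Vale.Agent.P333.X

open Vale.Agent.P333 Vale.Agent.P333.U Vale.Agent.P333.E Vale.Agent.P333.G Vale.Agent.Lib.PolyTime

/-- Entry `(D, p, h)`: class of strings, period, gate (`h = []`: no gate). -/
abbrev Ent := List (List ℕ) × ℕ × List ℕ

/-- A state: the entries and the circles of a cover. -/
abbrev St := List Ent × List (List (List ℕ))

/-- Declared overlap: all arcs from the gate of a class into the class are closed. -/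
def dU (U : List Ent) (s t : List ℕ) : ℕ :=
  if U.any (fun e => decide (e.2.2 = s) && decide (t ∈ e.1)) then 0 else ov s t

/-- The least declared overlap of a circle. -/
def oMin (d : List ℕ → List ℕ → ℕ) (c : List (List ℕ)) : ℕ :=
  ((cprs [] c).map (fun e => d e.1 e.2)).foldl min (dO d c)

/-- Big circles. -/
def bigC (d : List ℕ → List ℕ → ℕ) (c : List (List ℕ)) : Bool := decide (dW d c < oMin d c)

/-- The least period of the word of a circle. -/
def perC (c : List (List ℕ)) : ℕ :=
  ((List.range (cycW c)).find? (fun q =>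
    decide (((mergeL c).take (cycW c)).rotate (q + 1) = (mergeL c).take (cycW c)))).getD 0 + 1

/-- The representative of a class. -/
def repD (D : List (List ℕ)) (p : ℕ) : List ℕ :=
  (D.map (prW D p)).foldl (fun u v => if v.length < u.length then v else u) (prW D p (D.headD []))

/-- `P` -/
def pD (D : List (List ℕ)) (p : ℕ) : ℕ := (repD D p).length + 1 - 2 * p

/-- The penalty. -/
def penU (U : List Ent) : ℕ :=
  (U.map (fun e => if decide (e.2.2 = []) then pD e.1 e.2.1 else 0)).sum

/-- The sum of all `P`. -/
def pAll (U : List Ent) : ℕ := (U.map (fun e => pD e.1 e.2.1)).sum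

/-- Declared weight of the cover. -/
def cC (s : St) : ℕ := (s.2.map (dW (dU s.1))).sum

/-- The potential. -/
def phi (s : St) : ℕ := 8 * cC s + penU s.1

/-! ### Moves -/

/-- Setting a gate; `q.2 = []` means that there is no condition on the target. -/
def app (q : List ℕ × List ℕ) (U : List Ent) : List Ent :=
  U.map (fun e => if decide (q.1 ∈ e.1) && !decide (q.2 ∈ e.1) then (e.1, e.2.1, q.1)
    else if decide (e.2.2 = q.1) then (e.1, e.2.1, []) else e)

/-- All states of the gates after at most `k` steps. -/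
def nbs (S : List (List ℕ)) : ℕ → List Ent → List (List Ent)
  | 0, U => [U]
  | k + 1, U => (nbs S k U).flatMap (fun V =>
      V :: S.flatMap (fun x => ([] :: S).map (fun y => app (x, y) V)))

/-- Moving a gate which would be violated on the circle `m` to an exit of `m`. -/
def regate (m : List (List ℕ)) (e : Ent) : Ent :=
  if (cprs [] m).any (fun a => decide (a.1 = e.2.2) && decide (a.2 ∈ e.1)) then
    (((cprs [] m).find? (fun a => decide (a.1 ∈ e.1) && !decide (a.2 ∈ e.1))).map
      (fun a => ((e.1, e.2.1, a.1) : Ent))).getD e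
  else e

/-- Merging two circles. -/
def mrg (s : St) (c c2 : List (List ℕ)) (i j : ℕ) : St :=
  (s.1.map (regate (c.rotate i ++ c2.rotate j)),
    (c.rotate i ++ c2.rotate j) :: (s.2.erase c).erase c2)

/-- The class of `c` is listed. -/
def listed (S : List (List ℕ)) (U : List Ent) (c : List (List ℕ)) : Bool :=
  U.any (fun e => decide (e.1 = famD S c) && decide (e.2.1 = perC c))

/-- The measure. -/
def meas (S : List (List ℕ)) (s : St) : ℕ :=
  (S.flatten.length - s.1.length) * ((S.flatten.length + 1) * (S.length + 1)) +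
    phi s * (S.length + 1) + s.2.length

/-- Candidates: new gates. -/
def cand1 (asg : List Unit × List (List ℕ) → List ℕ) (K : ℕ) (S : List (List ℕ)) (s : St) :
    List St := (nbs S K s.1).map (fun V => (V, dOpt asg (dU V) S))

/-- Candidates: merges. -/
def cand2 (s : St) : List St :=
  s.2.flatMap (fun c => s.2.flatMap (fun c2 => if decide (c = c2) then [] else
    (List.range c.length).flatMap (fun i => (List.range c2.length).map (fun j => mrg s c c2 i j))))

/-- Candidates: new classes. -/
def cand3 (Q : ℕ) (S : List (List ℕ)) (s : St) : List St :=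
  (s.2.filter (fun c => bigC (dU s.1) c && !listed S s.1 c &&
    decide (perC c ≤ Q * pD (famD S c) (perC c)))).map
      (fun c => (s.1 ++ [(famD S c, perC c, [])], s.2))

/-- All candidates. -/
def cands (asg : List Unit × List (List ℕ) → List ℕ) (K Q : ℕ) (S : List (List ℕ)) (s : St) :
    List St := cand1 asg K S s ++ cand2 s ++ cand3 Q S s

/-- No candidate has a smaller measure. -/
def Term (asg : List Unit × List (List ℕ) → List ℕ) (K Q : ℕ) (S : List (List ℕ)) (s : St) :
    Prop := ∀ s' ∈ cands asg K Q S s, meas S s ≤ meas S s'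

/-- A circle of strings of `S` whose overlaps are longer than its weight. -/
structure BigOk (S c : List (List ℕ)) : Prop where
  nodup : c.Nodup
  ne : c ≠ []
  sub : ∀ s ∈ c, s ∈ S
  big : ∀ a ∈ cprs [] c, cycW c < ov a.1 a.2

/-- Invariants of an entry. -/
structure EOk (Q : ℕ) (S : List (List ℕ)) (e : Ent) : Prop where
  wit : ∃ c, BigOk S c ∧ e.1 = famD S c ∧ e.2.1 = perC c
  gate : e.2.2 = [] ∨ e.2.2 ∈ e.1
  large : e.2.1 ≤ Q * pD e.1 e.2.1

/-- Invariants of a state. -/
structure Inv (Q : ℕ) (S : List (List ℕ)) (s : St) : Prop where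
  perm : s.2.flatten.Perm S
  ne : ∀ c ∈ s.2, c ≠ []
  ent : ∀ e ∈ s.1, EOk Q S e
  nodup : (s.1.map (fun e => (e.1, e.2.1))).Nodup

/-! ### Statements of the parts -/

/-- Properties of the representative of the class of a big circle. -/
structure RepSpec (S : List (List ℕ)) (c : List (List ℕ)) (e : ℕ) : Prop where
  ppos : 0 < perC c
  ple : perC c ≤ cycW c
  per : ∀ k, cycWord c (k + perC c) = cycWord c k
  prim : ∀ q, 0 < q → q < perC c → ¬ ∀ k, cycWord c (k + q) = cycWord c k
  win : ∀ k, ∃ s ∈ S, (List.range (e + 1)).map (fun j => cycWord c (k + j)) <:+: s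
  len : (repD (famD S c) (perC c)).length ≤ perC c + e
  cont : ∀ s ∈ famD S c, s <:+: repD (famD S c) (perC c)
  sub : ∀ s ∈ c, s ∈ famD S c
  loop : ∃ x ∈ S, ∃ y : List ℕ, y.length ≤ perC c ∧ x <+: y ++ x ∧
    repD (famD S c) (perC c) <+: y ++ x

/-- R: the representative. -/
def XRep : Prop := ∀ S c, Sfree S → BigOk S c → ∃ e, RepSpec S c e

/-- S: sum of `P` (`rauzyBound`). -/
def XSum : Prop := ∀ Q S s T, Sfree S → Inv Q S s → IsSuperstring S T → pAll s.1 ≤ T.length

/-- Lemma 1: closure of big circles at terminal states. -/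
def XClosed : Prop := ∀ asg K Q S s, Sfree S → Inv Q S s → Term asg K Q S s →
  ∀ c ∈ s.2, bigC (dU s.1) c = true → ∀ h ∈ famD S c, h ∈ c

/-- L: big circles are listed or small at terminal states. -/
def XListed : Prop := ∀ asg K Q S s, Sfree S → Inv Q S s → Term asg K Q S s →
  ∀ c ∈ s.2, bigC (dU s.1) c = true →
    listed S s.1 c = true ∨ Q * pD (famD S c) (perC c) < perC c

/-- T: the superstring as a permutation; `z` is its last string. -/
def XT : Prop := ∀ (S : List (List ℕ)) (T : List ℕ), Sfree S → S ≠ [] → IsSuperstring S T →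
  ∃ (σ : Equiv.Perm (Fin S.length)) (z : Fin S.length),
    (∑ i, if i = z then (S.get i).length else ((S.get i).length - ov (S.get i) (S.get (σ i)))) ≤
      T.length ∧
    ∀ D : List (List ℕ), (∃ s ∈ D, s ∈ S) → ∃ i, S.get i ∈ D ∧ (i = z ∨ S.get (σ i) ∉ D)

/-- Exit gates, abstract version: cost of an arc. -/
def cstX {V κ : Type} [DecidableEq V] [Fintype κ] (D : κ → Finset V) (len : V → ℕ)
    (a : V → V → ℕ) (g : κ → Option V) (x y : V) : ℕ :=
  if ∃ k, g k = some x ∧ y ∈ D k then len x else a x y

/-- Abstract version of `app`; `q.2 = none` means no condition. -/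
def appX {V κ : Type} [DecidableEq V] (D : κ → Finset V) (q : V × Option V) (g : κ → Option V)
    (k : κ) : Option V :=
  if q.1 ∈ D k ∧ (∀ y, q.2 = some y → y ∉ D k) then some q.1
  else if g k = some q.1 then none else g k

/-- Penalty, abstract version. -/
def penX {V κ : Type} [Fintype κ] (P : κ → ℕ) (g : κ → Option V) : ℕ :=
  ∑ k, if (g k).isNone then P k else 0

/-- E: the bound at a local optimum, abstract version. -/
def XLoc : Prop := ∀ (V κ : Type) [Fintype V] [DecidableEq V] [Fintype κ] [DecidableEq κ]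
  (D : κ → Finset V) (P : κ → ℕ) (len : V → ℕ) (a : V → V → ℕ) (M : ℕ) (g : κ → Option V)
  (X T : Equiv.Perm V) (z : V) (h : κ → V) (n : ℕ),
  (∀ x y, a x y ≤ len x) → 0 < M → (∀ k x, g k = some x → x ∈ D k) →
  (∀ k, h k ∈ D k ∧ (h k = z ∨ T (h k) ∉ D k)) →
  (∑ x, if x = z then len x else a x (T x)) ≤ n →
  (∀ (Q : List (V × Option V)), Q.length ≤ 2 * M → ∀ Y : Equiv.Perm V,
    8 * ∑ x, cstX D len a g x (X x) + penX P g ≤
      8 * ∑ x, cstX D len a (Q.foldl (fun g q => appX D q g) g) x (Y x) +
        penX P (Q.foldl (fun g q => appX D q g) g)) →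
  M * (8 * ∑ x, cstX D len a g x (X x) + 2 * penX P g) ≤
    M * (8 * n + ∑ k, P k) + 8 * ((∑ k, ((g k).map len).getD 0) + ∑ k, len (h k))

/-- O: the bound at a terminal state. -/
def XOpt : Prop := ∀ asg, AsgOk asg → ∀ M Q S s T, 0 < M → Sfree S → Inv Q S s →
  Term asg (2 * M) Q S s → IsSuperstring S T →
    M * (8 * cC s + 2 * penU s.1) ≤ M * (8 * T.length + pAll s.1) +
      16 * (s.1.map (fun e => (repD e.1 e.2.1).length)).sum

/-- F: the algorithm which computes a terminal state. -/
def XRun : Prop := ∀ asg, PT ∅ asg → AsgOk asg → ∀ K Q : ℕ,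
  ∃ run : List (List ℕ) → St, PT ∅ run ∧
    ∀ S, Sfree S → Inv Q S (run S) ∧ Term asg K Q S (run S)

/-- The representative of a circle. -/
def repX (S : List (List ℕ)) (d : List ℕ → List ℕ → ℕ) (c : List (List ℕ)) : List ℕ :=
  if bigC d c then repD (famD S c) (perC c)
  else ((List.range c.length).map (fun i => mergeL (c.rotate i))).foldl
    (fun u v => if v.length < u.length then v else u) (mergeL c)

/-- All representatives. -/
def repsX (S : List (List ℕ)) (s : St) : List (List ℕ) := s.2.map (repX S (dU s.1))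

/-- H1: the representatives contain everything. -/
def XCont : Prop := ∀ Q S s, Sfree S → Inv Q S s → ∀ t ∈ S, ∃ R ∈ repsX S s, t <:+: R

/-- H2: the representatives fit into a short word. -/
def XFit : Prop := ∀ Q S s T, Sfree S → Inv Q S s → IsSuperstring S T →
  ∃ U : List ℕ, U.length ≤ T.length + cC s ∧ ∀ R ∈ repsX S s, R <:+: U

/-- H3: total length of the representatives. -/
def XAcc : Prop := ∀ asg K Q S s, Sfree S → Inv Q S s → Term asg K Q S s →
  Q * ((repsX S s).map List.length).sum ≤ Q * (2 * cC s + penU s.1) + cC s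

/-- The algorithm. -/
def algX (run : List (List ℕ) → St) (atsp : List Unit × List (List ℕ) → List ℕ)
    (S : List (List ℕ)) : List ℕ := stageW atsp (repsX S (run S))

/-- P: polynomial time. -/
def XPT : Prop := ∀ run atsp, PT ∅ run → PT ∅ atsp → PT ∅ (algX run atsp)

end Vale.Agent.P333.X
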