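import Mathlib
import Vale.Agent.P333.X.Defs
import Vale.Agent.P333.G.Fit
import Vale.Agent.P333.G.Base
import Vale.Agent.P333.G.Ins

set_option linter.all false

/-!
P333, ratio `13/6 + ε`: the representatives contain all strings, and they fit into a short word.
-/

namespace Vale.Agent.P333.X

open Vale.Agent.P333 Vale.Agent.P333.U Vale.Agent.P333.E Vale.Agent.P333.G

namespace Fit

theorem dU_le_ov (U : List Ent) (s t : List ℕ) : dU U s t ≤ ov s t := by
  unfold dU
  split_ifs
  · exact Nat.zero_le _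
  · exact le_refl _

theorem foldl_min_le (l : List ℕ) (b : ℕ) : l.foldl min b ≤ b ∧ ∀ x ∈ l, l.foldl min b ≤ x := by
  induction l generalizing b with
  | nil => exact ⟨le_refl _, fun x hx => absurd hx (by simp)⟩
  | cons a l ih =>
    obtain ⟨h1, h2⟩ := ih (min b a)
    rw [List.foldl_cons]
    refine ⟨h1.trans (min_le_left _ _), fun x hx => ?_⟩
    rcases List.mem_cons.1 hx with rfl | hx
    · exact h1.trans (min_le_right _ _)
    · exact h2 x hx

theorem oMin_le (d : List ℕ → List ℕ → ℕ) (c : List (List ℕ)) :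
    ∀ a ∈ cprs [] c, oMin d c ≤ d a.1 a.2 := fun a ha =>
  (foldl_min_le _ _).2 _ (List.mem_map_of_mem ha)

theorem mem_S {Q : ℕ} {S : List (List ℕ)} {s : St} (h : Inv Q S s) {c : List (List ℕ)}
    (hc : c ∈ s.2) : ∀ t ∈ c, t ∈ S := fun t ht =>
  h.perm.mem_iff.1 (List.mem_flatten.2 ⟨c, hc, ht⟩)

/-- Big circles have overlaps longer than their weights. -/
theorem bigOk_of {Q : ℕ} {S : List (List ℕ)} {s : St} (hS : Sfree S) (h : Inv Q S s)
    {c : List (List ℕ)} (hc : c ∈ s.2) (hb : bigC (dU s.1) c = true) : BigOk S c := by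
  refine ⟨(List.nodup_flatten.1 (h.perm.nodup_iff.2 hS.nodup)).1 c hc, h.ne c hc, mem_S h hc,
    fun a ha => ?_⟩
  have h0 : dW (dU s.1) c < oMin (dU s.1) c := of_decide_eq_true hb
  have h1 := oMin_le (dU s.1) c a ha
  have h2 := dU_le_ov s.1 a.1 a.2
  have h3 := cycW_le_dW (dU_le_ov s.1) c
  omega

theorem foldl_pick (l : List (List ℕ)) (b : List ℕ) :
    l.foldl (fun u v => if v.length < u.length then v else u) b = b ∨
      l.foldl (fun u v => if v.length < u.length then v else u) b ∈ l := by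
  induction l generalizing b with
  | nil => exact Or.inl rfl
  | cons a l ih =>
    rw [List.foldl_cons]
    rcases ih (if a.length < b.length then a else b) with h | h
    · rw [h]
      split_ifs
      · exact Or.inr List.mem_cons_self
      · exact Or.inl rfl
    · exact Or.inr (List.mem_cons_of_mem _ h)

theorem repX_notBig (S : List (List ℕ)) (d : List ℕ → List ℕ → ℕ) (c : List (List ℕ))
    (h : ¬ bigC d c = true) : ∃ i, repX S d c = mergeL (c.rotate i) := by
  unfold repX
  rw [if_neg h]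
  rcases foldl_pick ((List.range c.length).map (fun i => mergeL (c.rotate i))) (mergeL c) with h | h
  · exact ⟨0, by rw [h, List.rotate_zero]⟩
  · obtain ⟨i, -, hi⟩ := List.mem_map.1 h
    exact ⟨i, hi.symm⟩

/-- The representative of a circle contains its strings. -/
theorem infix_repX (hR : XRep) {Q : ℕ} {S : List (List ℕ)} {s : St} (hS : Sfree S)
    (h : Inv Q S s) {c : List (List ℕ)} (hc : c ∈ s.2) :
    ∀ t ∈ c, t <:+: repX S (dU s.1) c := by
  intro t ht
  by_cases hb : bigC (dU s.1) c = true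
  · obtain ⟨e, he⟩ := hR S c hS (bigOk_of hS h hc hb)
    unfold repX
    rw [if_pos hb]
    exact he.cont t (he.sub t ht)
  · obtain ⟨i, hi⟩ := repX_notBig S _ c hb
    rw [hi]
    exact infix_mergeL (List.mem_rotate.2 ht)

/-- The representative of a circle is contained in a loop. -/
theorem loop_repX (hR : XRep) {Q : ℕ} {S : List (List ℕ)} {s : St} (hS : Sfree S)
    (h : Inv Q S s) {c : List (List ℕ)} (hc : c ∈ s.2) :
    ∃ x ∈ S, ∃ y : List ℕ, y.length ≤ cycW c ∧ x <+: y ++ x ∧ repX S (dU s.1) c <+: y ++ x := by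
  by_cases hb : bigC (dU s.1) c = true
  · obtain ⟨e, he⟩ := hR S c hS (bigOk_of hS h hc hb)
    obtain ⟨x, hx, y, h1, h2, h3⟩ := he.loop
    unfold repX
    rw [if_pos hb]
    exact ⟨x, hx, y, h1.trans he.ple, h2, h3⟩
  · obtain ⟨i, hi⟩ := repX_notBig S _ c hb
    have hne : c.rotate i ≠ [] := by
      intro h0
      exact h.ne c hc (List.rotate_eq_nil_iff.1 h0)
    refine ⟨(c.rotate i).headD [], ?_, (mergeL (c.rotate i)).take (cycW (c.rotate i)), ?_,
      (headD_prefix_mergeL _).trans (mergeL_prefix_once _), ?_⟩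
    · obtain ⟨t, c', hc'⟩ := List.exists_cons_of_ne_nil hne
      have ht : t ∈ c.rotate i := by rw [hc']; exact List.mem_cons_self
      rw [hc']
      exact mem_S h hc t (List.mem_rotate.1 ht)
    · rw [List.length_take, cycW_rotate]
      exact min_le_left _ _
    · rw [hi]
      exact mergeL_prefix_once _

end Fit

/-- H1. -/
theorem xCont_of (hR : XRep) : XCont := by
  intro Q S s hS h t ht
  obtain ⟨c, hc, htc⟩ := List.mem_flatten.1 (h.perm.mem_iff.2 ht)
  exact ⟨repX S (dU s.1) c, List.mem_map_of_mem hc, Fit.infix_repX hR hS h hc t htc⟩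

/-- H2. -/
theorem xFit_of (hR : XRep) : XFit := by
  classical
  intro Q S s T hS h hT
  have hex := fun c hc => Fit.loop_repX hR hS h (c := c) hc
  choose! x hx y hy1 hy2 hy3 using hex
  obtain ⟨U, hU1, hU2⟩ := blkIns S T (s.2.map (fun c => (x c, y c, repX S (dU s.1) c))) hS hT (by
    intro r hr
    obtain ⟨c, hc, rfl⟩ := List.mem_map.1 hr
    exact ⟨hx c hc, hy2 c hc, hy3 c hc⟩)
  refine ⟨U, ?_, ?_⟩
  · rw [hU1, List.map_map]
    refine Nat.add_le_add_left ?_ _
    unfold cC
    refine List.sum_le_sum fun c hc => ?_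
    have h1 := hy1 c hc
    have h2 := cycW_le_dW (Fit.dU_le_ov s.1) c
    simp only [Function.comp]
    omega
  · intro R hR
    obtain ⟨c, hc, rfl⟩ := List.mem_map.1 hR
    exact hU2 (x c, y c, repX S (dU s.1) c) (List.mem_map.2 ⟨c, hc, rfl⟩)

end Vale.Agent.P333.X
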