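import Vale.Agent.P333.X.Defs
import Vale.Agent.P333.G.LocOpt
import Vale.Agent.P333.G.Seg

set_option linter.all false

/-! # P333, ratio 13/6 + ε: the abstract bound at a local optimum with exit gates -/

namespace Vale.Agent.P333.X.Loc857

open Finset Vale.Agent.P333.G

section
variable {V κ : Type} [Fintype V] [DecidableEq V] [Fintype κ] [DecidableEq κ]
  (D : κ → Finset V) (T : Equiv.Perm V) (z : V)

/-- condition attached to a node -/
def qz (x : V) : Option V := if x = z then none else some (T x)

/-- exits -/
def Exit (x : V) (k : κ) : Prop := x ∈ D k ∧ (x = z ∨ T x ∉ D k)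

theorem exit_iff (x : V) (k : κ) :
    (x ∈ D k ∧ ∀ y, qz T z x = some y → y ∉ D k) ↔ Exit D T z x k := by
  unfold Exit qz
  by_cases hx : x = z
  · simp [hx]
  · simp [hx]

theorem app_pos (x : V) (g : κ → Option V) (k : κ) (h : Exit D T z x k) :
    appX D (x, qz T z x) g k = some x := by
  unfold appX
  rw [if_pos ((exit_iff D T z x k).2 h)]

theorem app_neg (x : V) (g : κ → Option V) (k : κ) (h : ¬ Exit D T z x k) :
    appX D (x, qz T z x) g k = if g k = some x then none else g k := by
  unfold appX
  rw [if_neg (fun h' => h ((exit_iff D T z x k).1 h'))]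

/-- the gates after the moves at the nodes of `L` -/
def fin (L : List V) (g : κ → Option V) : κ → Option V :=
  (L.map (fun x => (x, qz T z x))).foldl (fun g q => appX D q g) g

theorem fin_nil (g : κ → Option V) : fin D T z [] g = g := rfl

theorem fin_cons (x : V) (L : List V) (g : κ → Option V) :
    fin D T z (x :: L) g = fin D T z L (appX D (x, qz T z x) g) := rfl

/-- (F1) -/
theorem fin_some (L : List V) : ∀ (g : κ → Option V) (k : κ) (x : V),
    fin D T z L g k = some x → (x ∈ L ∧ Exit D T z x k) ∨ (x ∉ L ∧ g k = some x) := by
  induction L with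
  | nil =>
    intro g k x h
    exact Or.inr ⟨by simp, h⟩
  | cons y L ih =>
    intro g k x h
    rw [fin_cons] at h
    rcases ih _ k x h with ⟨h1, h2⟩ | ⟨h1, h2⟩
    · exact Or.inl ⟨List.mem_cons_of_mem _ h1, h2⟩
    · by_cases he : Exit D T z y k
      · rw [app_pos D T z y g k he] at h2
        have : y = x := by simpa using h2
        subst this
        exact Or.inl ⟨List.mem_cons_self, he⟩
      · rw [app_neg D T z y g k he] at h2
        split_ifs at h2 with h3
        refine Or.inr ⟨fun hx => ?_, h2⟩
        rcases List.mem_cons.1 hx with e | hx'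
        · exact h3 (by rw [h2, e])
        · exact h1 hx'

/-- once an exit gate outside the remaining list is set, the class stays gated -/
theorem fin_keep (L : List V) : ∀ (g : κ → Option V) (k : κ) (x : V),
    g k = some x → x ∉ L → ∃ y, fin D T z L g k = some y := by
  induction L with
  | nil =>
    intro g k x h _
    exact ⟨x, h⟩
  | cons y L ih =>
    intro g k x h hx
    rw [fin_cons]
    by_cases he : Exit D T z y k
    · by_cases hy : y ∈ L
      · -- the gate may be moved again; still gated
        by_cases hL : ∃ w ∈ L, Exit D T z w k
        · clear ih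
          -- general statement below
          obtain ⟨w, hw, hwe⟩ := hL
          have key : ∀ (L : List V) (g : κ → Option V), (∃ w ∈ L, Exit D T z w k) →
              (∃ y, fin D T z L g k = some y) := by
            intro L
            induction L with
            | nil =>
              intro g h
              obtain ⟨w, hw, _⟩ := h
              simp at hw
            | cons v L ih2 =>
              intro g h
              rw [fin_cons]
              by_cases hL2 : ∃ w ∈ L, Exit D T z w k
              · exact ih2 _ hL2
              · obtain ⟨w, hw, hwe⟩ := h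
                have hwv : w = v := by
                  rcases List.mem_cons.1 hw with e | h'
                  · exact e
                  · exact absurd ⟨w, h', hwe⟩ hL2
                subst hwv
                have h4 : appX D (w, qz T z w) g k = some w := app_pos D T z w g k hwe
                have key2 : ∀ (L : List V) (g : κ → Option V), g k = some w →
                    (¬ ∃ w ∈ L, Exit D T z w k) → w ∉ L → fin D T z L g k = some w := by
                  intro L
                  induction L with
                  | nil => intro g h _ _; exact h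
                  | cons u L ih3 =>
                    intro g h5 h6 h7
                    rw [fin_cons]
                    refine ih3 _ ?_ (fun ⟨b, hb, hbe⟩ => h6 ⟨b, List.mem_cons_of_mem _ hb, hbe⟩)
                      (fun h => h7 (List.mem_cons_of_mem _ h))
                    rw [app_neg D T z u g k (fun h => h6 ⟨u, List.mem_cons_self, h⟩), h5,
                      if_neg]
                    intro h8
                    have : w = u := by simpa using h8
                    exact h7 (this ▸ List.mem_cons_self)
                refine ⟨w, key2 L _ h4 hL2 (fun hwL => hL2 ⟨w, hwL, hwe⟩)⟩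
          exact key L _ ⟨w, hw, hwe⟩
        · exact absurd ⟨y, hy, he⟩ hL
      · exact ih _ k y (app_pos D T z y g k he) hy
    · refine ih _ k x ?_ (fun h' => hx (List.mem_cons_of_mem _ h'))
      rw [app_neg D T z y g k he, h, if_neg]
      intro h8
      have : x = y := by simpa using h8
      exact hx (this ▸ List.mem_cons_self)

/-- (F2) -/
theorem fin_exit (L : List V) : ∀ (g : κ → Option V) (k : κ) (x : V),
    x ∈ L → Exit D T z x k → ∃ y, fin D T z L g k = some y := by
  induction L with
  | nil => intro g k x h; simp at h
  | cons y L ih =>
    intro g k x hx he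
    rw [fin_cons]
    by_cases hxL : x ∈ L
    · exact ih _ k x hxL he
    · rcases List.mem_cons.1 hx with e | hx'
      · subst e
        exact fin_keep D T z L _ k x (app_pos D T z x g k he) hxL
      · exact absurd hx' hxL

end

theorem sum_biUnion_le857 {V κ : Type} [DecidableEq V] [DecidableEq κ] (K : Finset κ)
    (s : κ → Finset V) (f : V → ℕ) : ∑ x ∈ K.biUnion s, f x ≤ ∑ k ∈ K, ∑ x ∈ s k, f x := by
  induction K using Finset.induction_on with
  | empty => simp
  | insert k K hk ih =>
    rw [Finset.biUnion_insert, Finset.sum_insert hk]
    have h1 : ∑ x ∈ s k ∪ K.biUnion s, f x ≤ ∑ x ∈ s k, f x + ∑ x ∈ K.biUnion s, f x := by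
      rw [← Finset.sum_union_inter]
      exact Nat.le_add_right _ _
    omega

end Vale.Agent.P333.X.Loc857

namespace Vale.Agent.P333.X

open Finset Vale.Agent.P333.G Loc857

theorem xLoc : XLoc := by
  intro V κ _ _ _ _ D P len a M g X T z h n ha hM hg hh hT hopt
  classical
  let s : κ → Finset V := fun k => (g k).toFinset ∪ {h k}
  let Z : Finset V := Finset.univ.biUnion s
  have hgZ : ∀ k x, g k = some x → x ∈ Z := by
    intro k x hx
    refine Finset.mem_biUnion.2 ⟨k, Finset.mem_univ _, Finset.mem_union_left _ ?_⟩
    rw [hx]
    simp
  have hhZ : ∀ k, h k ∈ Z := by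
    intro k
    exact Finset.mem_biUnion.2 ⟨k, Finset.mem_univ _, Finset.mem_union_right _ (by simp)⟩
  obtain ⟨E, hnd, hmem, hE, hcl⟩ := segLemma V (X⁻¹ * T) Z len M hM
  have hlnd : ∀ l ∈ E, l.Nodup := (List.nodup_flatten.1 hnd).1
  have hZ : ∑ x ∈ Z, len x ≤ (∑ k, ((g k).map len).getD 0) + ∑ k, len (h k) := by
    refine (sum_biUnion_le857 Finset.univ s len).trans ?_
    rw [← Finset.sum_add_distrib]
    refine Finset.sum_le_sum (fun k _ => ?_)
    have h1 : ∑ x ∈ (g k).toFinset ∪ {h k}, len x ≤
        ∑ x ∈ (g k).toFinset, len x + ∑ x ∈ {h k}, len x := by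
      rw [← Finset.sum_union_inter]
      exact Nat.le_add_right _ _
    refine h1.trans ?_
    rw [Finset.sum_singleton]
    refine Nat.add_le_add_right (le_of_eq ?_) _
    cases g k with
    | none => simp
    | some x => simp
  -- the moves
  let L : List V → List V := fun l => l.filter (fun x => decide (x ∈ Z))
  let G : List V → (κ → Option V) := fun l => fin D T z (L l) g
  have hexit : ∀ k, Exit D T z (h k) k := fun k => hh k
  have hopt' : ∀ l ∈ E, 8 * ∑ x, cstX D len a g x (X x) + penX P g ≤
      8 * ∑ x, cstX D len a (G l) x ((X * l.formPerm) x) + penX P (G l) := by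
    intro l hl
    refine hopt ((L l).map (fun x => (x, qz T z x))) ?_ _
    rw [List.length_map]
    exact (hE l hl).2.2
  have hcle : ∀ g' : κ → Option V, ∀ x y, cstX D len a g' x y ≤ len x := by
    intro g' x y
    unfold cstX
    split_ifs
    · exact le_rfl
    · exact ha x y
  have hcost : ∀ l ∈ E, ∑ x, cstX D len a (G l) x ((X * l.formPerm) x) +
      ∑ x ∈ l.toFinset, cstX D len a g x (X x) ≤
      ∑ x, cstX D len a g x (X x) +
        (∑ x ∈ l.toFinset, (if x = z then len x else a x (T x)) + clo (X⁻¹ * T) len l) := by
    intro l hl
    have hs1 := Finset.sum_add_sum_compl l.toFinset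
      (fun x => cstX D len a (G l) x ((X * l.formPerm) x))
    have hs2 := Finset.sum_add_sum_compl l.toFinset (fun x => cstX D len a g x (X x))
    have h1 : ∑ x ∈ l.toFinset, cstX D len a (G l) x ((X * l.formPerm) x) ≤
        ∑ x ∈ l.toFinset, (if x = z then len x else a x (T x)) + clo (X⁻¹ * T) len l := by
      refine (seg_sum X T len (fun x y => cstX D len a (G l) x y) (hcle _) l (hlnd l hl)
        (hE l hl).1 (hE l hl).2.1).trans ?_
      refine Nat.add_le_add_right (Finset.sum_le_sum (fun x hx => ?_)) _
      by_cases hxz : x = z
      · rw [if_pos hxz]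
        exact hcle _ _ _
      · rw [if_neg hxz]
        have hno : ¬ ∃ k, G l k = some x ∧ T x ∈ D k := by
          rintro ⟨k, hk, hk2⟩
          have hxl : x ∈ l := List.mem_toFinset.1 hx
          rcases fin_some D T z (L l) g k x hk with ⟨_, h3⟩ | ⟨h3, h4⟩
          · rcases h3.2 with e | e
            · exact hxz e
            · exact e hk2
          · apply h3
            exact List.mem_filter.2 ⟨hxl, by simpa using hgZ k x h4⟩
        show cstX D len a (G l) x (T x) ≤ a x (T x)
        unfold cstX
        rw [if_neg hno]
    have h2 : ∑ x ∈ l.toFinsetᶜ, cstX D len a (G l) x ((X * l.formPerm) x) ≤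
        ∑ x ∈ l.toFinsetᶜ, cstX D len a g x (X x) := by
      refine Finset.sum_le_sum (fun x hx => ?_)
      have hxl : x ∉ l := fun h => (Finset.mem_compl.1 hx) (List.mem_toFinset.2 h)
      rw [Equiv.Perm.mul_apply, List.formPerm_apply_of_notMem hxl]
      by_cases hc : ∃ k, G l k = some x ∧ X x ∈ D k
      · have hc2 : ∃ k, g k = some x ∧ X x ∈ D k := by
          obtain ⟨k, hk, hk2⟩ := hc
          rcases fin_some D T z (L l) g k x hk with ⟨h3, _⟩ | ⟨_, h4⟩
          · exact absurd (List.mem_of_mem_filter h3) hxl
          · exact ⟨k, h4, hk2⟩
        unfold cstX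
        rw [if_pos hc, if_pos hc2]
      · unfold cstX
        rw [if_neg hc]
        split_ifs
        · exact ha _ _
        · exact le_rfl
    omega
  -- penalties
  have hpen1 : ∀ k, ∀ l ∈ E, (if (G l k).isNone then P k else 0) +
      (if h k ∈ l then (if (g k).isNone then P k else 0) else 0) ≤
      (if (g k).isNone then P k else 0) +
        (if ∃ x, g k = some x ∧ x ∈ l then P k else 0) := by
    intro k l hl
    by_cases hkl : h k ∈ l
    · rw [if_pos hkl]
      have hL : h k ∈ L l := List.mem_filter.2 ⟨hkl, by simpa using hhZ k⟩
      obtain ⟨y, hy⟩ := fin_exit D T z (L l) g k (h k) hL (hexit k)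
      have : (G l k).isNone = false := by
        show (fin D T z (L l) g k).isNone = false
        rw [hy]
        rfl
      rw [this]
      simp
    · rw [if_neg hkl]
      cases hgk : g k with
      | none =>
        simp only [Option.isNone_none, if_true]
        split_ifs <;> omega
      | some x =>
        by_cases hxl : x ∈ l
        · have : ∃ x', some x = some x' ∧ x' ∈ l := ⟨x, rfl, hxl⟩
          rw [if_pos this]
          split_ifs <;> omega
        · have hxL : x ∉ L l := fun h' => hxl (List.mem_of_mem_filter h')
          obtain ⟨y, hy⟩ := fin_keep D T z (L l) g k x hgk hxL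
          have : (G l k).isNone = false := by
            show (fin D T z (L l) g k).isNone = false
            rw [hy]
            rfl
          rw [this]
          simp
  have hpen2 : ∀ k, (E.map (fun l => if (G l k).isNone then P k else 0)).sum +
      2 * (if (g k).isNone then P k else 0) ≤
      E.length * (if (g k).isNone then P k else 0) + P k := by
    intro k
    have h1 := sum_le' E _ _ (hpen1 k)
    rw [sum_add', sum_add', sum_const', sum_ind E hnd hmem] at h1
    have h2 : (E.map (fun l => if ∃ x, g k = some x ∧ x ∈ l then P k else 0)).sum +
        (if (g k).isNone then P k else 0) ≤ P k := by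
      cases hgk : g k with
      | none =>
        have h4 : (E.map (fun l => if ∃ x, (none : Option V) = some x ∧ x ∈ l then P k else 0)).sum ≤
            (E.map (fun _ : List V => 0)).sum := by
          refine sum_le' E _ _ (fun l _ => ?_)
          rw [if_neg]
          rintro ⟨x, hx, _⟩
          simp at hx
        rw [sum_const'] at h4
        simp only [Option.isNone_none, if_true]
        omega
      | some x =>
        have h3 := sum_ind E hnd hmem x (P k)
        have h4 : (E.map (fun l => if ∃ x', some x = some x' ∧ x' ∈ l then P k else 0)).sum ≤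
            (E.map (fun l => if x ∈ l then P k else 0)).sum := by
          refine sum_le' E _ _ (fun l _ => ?_)
          by_cases hxl : x ∈ l
          · rw [if_pos hxl]
            split_ifs <;> omega
          · rw [if_neg hxl, if_neg]
            rintro ⟨x', hx', hx2⟩
            have : x = x' := by simpa using hx'
            exact hxl (this ▸ hx2)
        simp only [Option.isNone_some, Bool.false_eq_true, if_false]
        omega
    omega
  have hpen : (E.map (fun l => penX P (G l))).sum + 2 * penX P g ≤
      E.length * penX P g + ∑ k, P k := by
    have hswap : ∀ (E' : List (List V)), (E'.map (fun l => penX P (G l))).sum =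
        ∑ k, (E'.map (fun l => if (G l k).isNone then P k else 0)).sum := by
      intro E'
      induction E' with
      | nil => simp
      | cons e E' ih =>
        simp only [List.map_cons, List.sum_cons, Finset.sum_add_distrib]
        rw [ih]
        rfl
    rw [hswap]
    have := Finset.sum_le_sum (s := (Finset.univ : Finset κ)) (fun k _ => hpen2 k)
    rw [Finset.sum_add_distrib, Finset.sum_add_distrib, ← Finset.mul_sum, ← Finset.mul_sum] at this
    exact this
  have h3 := sum_le' E _ _ hopt'
  have h4 := sum_le' E _ _ hcost
  rw [sum_const', sum_add', sum_mul'] at h3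
  rw [sum_add', sum_add', sum_const', sum_add', sum_part E hnd hmem, sum_part E hnd hmem] at h4
  have h6 : 8 * ∑ x, cstX D len a g x (X x) + 2 * penX P g ≤
      8 * n + ∑ k, P k + 8 * (E.map (clo (X⁻¹ * T) len)).sum := by
    have e1 : E.length * (8 * ∑ x, cstX D len a g x (X x) + penX P g) =
        8 * (E.length * ∑ x, cstX D len a g x (X x)) + E.length * penX P g := by ring
    rw [e1] at h3
    omega
  calc M * (8 * ∑ x, cstX D len a g x (X x) + 2 * penX P g)
      ≤ M * (8 * n + ∑ k, P k + 8 * (E.map (clo (X⁻¹ * T) len)).sum) :=
        Nat.mul_le_mul_left _ h6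
    _ = M * (8 * n + ∑ k, P k) + 8 * (M * (E.map (clo (X⁻¹ * T) len)).sum) := by ring
    _ ≤ _ := by
        have := hcl.trans hZ
        omega

end Vale.Agent.P333.X
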