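import Mathlib
import Vale.Agent.P333.X.Defs
import Vale.Agent.P333.G.Cov

set_option linter.all false

/-!
P333, ratio `13/6 + ε`: the bound at a terminal state, from the abstract version.
-/

namespace Vale.Agent.P333.X

open Vale.Agent.P333 Vale.Agent.P333.U Vale.Agent.P333.E Vale.Agent.P333.G Vale.Agent.Lib.PolyTime

namespace OptB

theorem sum_map_get {α : Type*} (l : List α) (f : α → ℕ) :
    (l.map f).sum = ∑ k : Fin l.length, f (l.get k) := by
  rw [← List.sum_ofFn]
  congr 1
  apply List.ext_getElem <;> simp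

theorem sum_flatMap_map {α β : Type*} (C : List α) (f : α → List β) (g : β → ℕ) :
    ((C.flatMap f).map g).sum = (C.map fun c => ((f c).map g).sum).sum := by
  induction C with
  | nil => rfl
  | cons c C ih => rw [List.flatMap_cons, List.map_append, List.sum_append, ih]; simp

/-- The permutation of a cover. -/
theorem perm_of_cover (d : List ℕ → List ℕ → ℕ) (S : List (List ℕ)) (hS : S.Nodup)
    (C : List (List (List ℕ))) (hC : C.flatten.Perm S) :
    ∃ σ, (C.map (dW d)).sum = cost d S σ := by
  set G := C.flatMap (cprs []) with hG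
  have hmem : ∀ e ∈ G, e.1 ∈ S ∧ e.2 ∈ S := by
    intro e he
    constructor
    · refine hC.mem_iff.1 ?_
      rw [← flatMap_fst [] C]
      exact List.mem_map_of_mem he
    · exact hC.mem_iff.1 ((flatMap_snd [] C).mem_iff.1 (List.mem_map_of_mem he))
  let F : List (ℕ × ℕ) := G.map fun e => (S.idxOf e.1, S.idxOf e.2)
  have hF1 : (F.map Prod.fst).Perm (List.range S.length) := by
    have h1 : F.map Prod.fst = (G.map Prod.fst).map fun s => S.idxOf s := by
      simp only [F, List.map_map]
      rfl
    rw [h1, hG, flatMap_fst, ← map_idxOf_self hS]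
    exact hC.map fun s => S.idxOf s
  have hF2 : (F.map Prod.snd).Perm (List.range S.length) := by
    have h1 : F.map Prod.snd = (G.map Prod.snd).map fun s => S.idxOf s := by
      simp only [F, List.map_map]
      rfl
    rw [h1, ← map_idxOf_self hS]
    exact ((flatMap_snd [] C).trans hC).map fun s => S.idxOf s
  obtain ⟨P, hP1, hP2⟩ := exists_assign F hF1 hF2
    (fun i j => (S.getD i []).length - d (S.getD i []) (S.getD j []))
  obtain ⟨σ, hσ⟩ := exists_perm_of_assign hP1
  refine ⟨σ, ?_⟩
  have h1 : cost d S σ = ((List.range S.length).map fun i =>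
      (S.getD i []).length - d (S.getD i []) (S.getD (P.getD i 0) [])).sum := by
    rw [sum_range_eq, cost]
    refine Finset.sum_congr rfl fun i _ => ?_
    rw [← hσ i, List.getD_eq_getElem _ _ i.2, List.getD_eq_getElem _ _ (σ i).2]
    rfl
  rw [h1, hP2]
  have h2 : (C.map (dW d)).sum = (G.map fun e => e.1.length - d e.1 e.2).sum := by
    rw [hG, sum_flatMap_map]
    rfl
  rw [h2]
  simp only [F, List.map_map]
  congr 1
  refine List.map_congr_left fun e he => ?_
  simp only [Function.comp]
  rw [getD_idxOf (hmem e he).1, getD_idxOf (hmem e he).2]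

/-- The entries with the gates `g`. -/
def mkU (S : List (List ℕ)) (B : List Ent) (g : Fin B.length → Option (Fin S.length)) : List Ent :=
  List.ofFn fun k => ((B.get k).1, (B.get k).2.1, ((g k).map S.get).getD [])

/-- The classes as sets of indices. -/
def cD (S : List (List ℕ)) (B : List Ent) (k : Fin B.length) : Finset (Fin S.length) :=
  Finset.univ.filter fun i => S.get i ∈ (B.get k).1

theorem mem_cD {S : List (List ℕ)} {B : List Ent} {k : Fin B.length} {i : Fin S.length} :
    i ∈ cD S B k ↔ S.get i ∈ (B.get k).1 := by simp [cD]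

theorem length_mkU (S : List (List ℕ)) (B : List Ent) (g : Fin B.length → Option (Fin S.length)) :
    (mkU S B g).length = B.length := by simp [mkU]

section

variable {S : List (List ℕ)} {B : List Ent}

theorem getD_eq_nil (h0 : [] ∉ S) (o : Option (Fin S.length)) :
    (o.map S.get).getD [] = [] ↔ o = none := by
  cases o with
  | none => simp
  | some x =>
    simp only [Option.map_some, Option.getD_some, reduceCtorEq, iff_false]
    intro h
    exact h0 (h ▸ List.get_mem S x)

theorem getD_eq_get (h0 : [] ∉ S) (hS : S.Nodup) (o : Option (Fin S.length)) (x : Fin S.length) :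
    (o.map S.get).getD [] = S.get x ↔ o = some x := by
  cases o with
  | none =>
    simp only [Option.map_none, Option.getD_none, reduceCtorEq, iff_false]
    intro h
    exact h0 (h ▸ List.get_mem S x)
  | some y =>
    simp only [Option.map_some, Option.getD_some, Option.some.injEq]
    exact (List.nodup_iff_injective_get.1 hS).eq_iff

/-- List version of a pair. -/
def toL (S : List (List ℕ)) (q : Fin S.length × Option (Fin S.length)) : List ℕ × List ℕ :=
  (S.get q.1, (q.2.map S.get).getD [])

/-- One entry. -/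
def appE (q : List ℕ × List ℕ) (e : Ent) : Ent :=
  if decide (q.1 ∈ e.1) && !decide (q.2 ∈ e.1) then (e.1, e.2.1, q.1)
    else if decide (e.2.2 = q.1) then (e.1, e.2.1, []) else e

theorem appE_1 {q : List ℕ × List ℕ} {e : Ent} (h : q.1 ∈ e.1 ∧ q.2 ∉ e.1) :
    appE q e = (e.1, e.2.1, q.1) := by
  unfold appE
  rw [if_pos]
  rw [Bool.and_eq_true, decide_eq_true_eq, Bool.not_eq_true', decide_eq_false_iff_not]
  exact h

theorem appE_2 {q : List ℕ × List ℕ} {e : Ent} (h : ¬ (q.1 ∈ e.1 ∧ q.2 ∉ e.1))
    (h2 : e.2.2 = q.1) : appE q e = (e.1, e.2.1, []) := by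
  unfold appE
  rw [if_neg, if_pos]
  · rw [decide_eq_true_eq]; exact h2
  · rw [Bool.and_eq_true, decide_eq_true_eq, Bool.not_eq_true', decide_eq_false_iff_not]
    exact h

theorem appE_3 {q : List ℕ × List ℕ} {e : Ent} (h : ¬ (q.1 ∈ e.1 ∧ q.2 ∉ e.1))
    (h2 : e.2.2 ≠ q.1) : appE q e = e := by
  unfold appE
  rw [if_neg, if_neg]
  · rw [decide_eq_true_eq]; exact h2
  · rw [Bool.and_eq_true, decide_eq_true_eq, Bool.not_eq_true', decide_eq_false_iff_not]
    exact h

theorem app_mkU (h0 : [] ∉ S) (hS : S.Nodup) (hB : ∀ e ∈ B, ∀ t ∈ e.1, t ∈ S)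
    (g : Fin B.length → Option (Fin S.length)) (q : Fin S.length × Option (Fin S.length)) :
    app (toL S q) (mkU S B g) = mkU S B (appX (cD S B) q g) := by
  have h2 : app (toL S q) (mkU S B g) = (mkU S B g).map (appE (toL S q)) := rfl
  rw [h2]
  unfold mkU
  rw [List.map_ofFn]
  congr 1
  funext k
  show appE (toL S q) ((B.get k).1, (B.get k).2.1, ((g k).map S.get).getD []) =
    ((B.get k).1, (B.get k).2.1, ((appX (cD S B) q g k).map S.get).getD [])
  have h1 : ((toL S q).2 ∈ (B.get k).1) ↔ ¬ ∀ y, q.2 = some y → y ∉ cD S B k := by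
    show ((q.2.map S.get).getD [] ∈ (B.get k).1) ↔ _
    cases hq : q.2 with
    | none =>
      simp only [Option.map_none, Option.getD_none, reduceCtorEq, false_implies, implies_true,
        not_true_eq_false, iff_false]
      intro h
      exact h0 (hB _ (List.get_mem B k) _ h)
    | some y =>
      simp only [Option.map_some, Option.getD_some, Option.some.injEq, forall_eq', mem_cD, not_not]
  have h3 : ((toL S q).1 ∈ (B.get k).1) ↔ q.1 ∈ cD S B k := mem_cD.symm
  by_cases hc : q.1 ∈ cD S B k ∧ ∀ y, q.2 = some y → y ∉ cD S B k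
  · have hX : appX (cD S B) q g k = some q.1 := by
      unfold appX
      exact if_pos hc
    have h4 : appE (toL S q) ((B.get k).1, (B.get k).2.1, ((g k).map S.get).getD []) = _ :=
      appE_1 (⟨h3.2 hc.1, fun h => (h1.1 h) hc.2⟩ : (toL S q).1 ∈ (B.get k).1 ∧ (toL S q).2 ∉ (B.get k).1)
    rw [h4, hX]
    rfl
  · have hc' : ¬ ((toL S q).1 ∈ (B.get k).1 ∧ (toL S q).2 ∉ (B.get k).1) := by
      rintro ⟨h4, h5⟩
      refine hc ⟨h3.1 h4, ?_⟩
      by_contra h6
      exact h5 (h1.2 h6)
    by_cases hg : g k = some q.1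
    · have hX : appX (cD S B) q g k = none := by
        unfold appX
        exact (if_neg hc).trans (if_pos hg)
      have h4 : appE (toL S q) ((B.get k).1, (B.get k).2.1, ((g k).map S.get).getD []) = _ :=
        appE_2 hc' ((getD_eq_get h0 hS _ _).2 hg)
      rw [h4, hX]
      rfl
    · have hX : appX (cD S B) q g k = g k := by
        unfold appX
        exact (if_neg hc).trans (if_neg hg)
      have h4 : appE (toL S q) ((B.get k).1, (B.get k).2.1, ((g k).map S.get).getD []) = _ :=
        appE_3 hc' (fun h => hg ((getD_eq_get h0 hS _ _).1 h))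
      rw [h4, hX]

theorem foldl_mkU (h0 : [] ∉ S) (hS : S.Nodup) (hB : ∀ e ∈ B, ∀ t ∈ e.1, t ∈ S)
    (l : List (Fin S.length × Option (Fin S.length))) :
    ∀ g : Fin B.length → Option (Fin S.length),
      (l.map (toL S)).foldl (fun U q => app q U) (mkU S B g) =
        mkU S B (l.foldl (fun g q => appX (cD S B) q g) g) := by
  induction l with
  | nil => intro g; rfl
  | cons q l ih =>
    intro g
    rw [List.map_cons, List.foldl_cons, List.foldl_cons, app_mkU h0 hS hB, ih]

theorem penU_mkU (h0 : [] ∉ S) (g : Fin B.length → Option (Fin S.length)) :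
    penU (mkU S B g) = penX (fun k => pD (B.get k).1 (B.get k).2.1) g := by
  unfold penU mkU penX
  rw [List.map_ofFn, List.sum_ofFn]
  refine Finset.sum_congr rfl fun k _ => ?_
  simp only [Function.comp]
  by_cases h : g k = none
  · rw [if_pos (by rw [decide_eq_true_eq]; exact (getD_eq_nil h0 _).2 h), if_pos (by rw [h]; rfl)]
  · rw [if_neg (by rw [decide_eq_true_eq]; exact fun h' => h ((getD_eq_nil h0 _).1 h')),
      if_neg (by rw [Option.isNone_iff_eq_none]; exact h)]

theorem any_mkU (h0 : [] ∉ S) (hS : S.Nodup) (g : Fin B.length → Option (Fin S.length))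
    (i j : Fin S.length) :
    (mkU S B g).any (fun e => decide (e.2.2 = S.get i) && decide (S.get j ∈ e.1)) = true ↔
      ∃ k, g k = some i ∧ j ∈ cD S B k := by
  rw [List.any_eq_true]
  constructor
  · rintro ⟨e, he, h⟩
    rw [mkU, List.mem_ofFn] at he
    obtain ⟨k, rfl⟩ := he
    rw [Bool.and_eq_true, decide_eq_true_eq, decide_eq_true_eq] at h
    exact ⟨k, (getD_eq_get h0 hS _ _).1 h.1, mem_cD.2 h.2⟩
  · rintro ⟨k, h1, h2⟩
    refine ⟨((B.get k).1, (B.get k).2.1, ((g k).map S.get).getD []), ?_, ?_⟩
    · rw [mkU, List.mem_ofFn]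
      exact ⟨k, rfl⟩
    · rw [Bool.and_eq_true, decide_eq_true_eq, decide_eq_true_eq]
      exact ⟨(getD_eq_get h0 hS _ _).2 h1, mem_cD.1 h2⟩

theorem cost_mkU (h0 : [] ∉ S) (hS : S.Nodup) (g : Fin B.length → Option (Fin S.length))
    (σ : Equiv.Perm (Fin S.length)) :
    cost (dU (mkU S B g)) S σ = ∑ x, cstX (cD S B) (fun i => (S.get i).length)
      (fun i j => (S.get i).length - ov (S.get i) (S.get j)) g x (σ x) := by
  unfold cost
  refine Finset.sum_congr rfl fun x _ => ?_
  unfold dU cstX
  by_cases h : ∃ k, g k = some x ∧ σ x ∈ cD S B k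
  · rw [if_pos ((any_mkU h0 hS g x (σ x)).2 h), if_pos h]
    rfl
  · rw [if_neg (fun h' => h ((any_mkU h0 hS g x (σ x)).1 h')), if_neg h]

end

/-! ### Neighbours -/

theorem self_mem_nbs (S : List (List ℕ)) (U : List Ent) : ∀ k, U ∈ nbs S k U := by
  intro k
  induction k with
  | zero => simp [nbs]
  | succ k ih =>
    rw [nbs, List.mem_flatMap]
    exact ⟨U, ih, List.mem_cons_self⟩

theorem foldl_mem_nbs (S : List (List ℕ)) (U : List Ent) :
    ∀ (k : ℕ) (l : List (List ℕ × List ℕ)), l.length ≤ k →
      (∀ q ∈ l, q.1 ∈ S ∧ (q.2 = [] ∨ q.2 ∈ S)) → l.foldl (fun U q => app q U) U ∈ nbs S k U := by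
  intro k
  induction k with
  | zero =>
    intro l hl _
    have : l = [] := List.eq_nil_of_length_eq_zero (by omega)
    subst this
    simp [nbs]
  | succ k ih =>
    intro l hl hq
    rcases List.eq_nil_or_concat l with rfl | ⟨l', q, rfl⟩
    · exact self_mem_nbs S U _
    · rw [List.concat_eq_append] at hl hq ⊢
      rw [List.foldl_append, List.foldl_cons, List.foldl_nil, nbs, List.mem_flatMap]
      refine ⟨_, ih l' (by simp at hl; omega) fun q' hq' => hq q' (by simp [hq']), ?_⟩
      have h1 := hq q (by simp)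
      refine List.mem_cons_of_mem _ (List.mem_flatMap.2 ⟨q.1, h1.1, ?_⟩)
      rw [List.mem_map]
      refine ⟨q.2, ?_, rfl⟩
      rcases h1.2 with h2 | h2
      · rw [h2]; exact List.mem_cons_self
      · exact List.mem_cons_of_mem _ h2

theorem length_le_flatten {α : Type*} (C : List (List α)) (h : ∀ c ∈ C, c ≠ []) :
    C.length ≤ C.flatten.length := by
  induction C with
  | nil => simp
  | cons c C ih =>
    have h1 := ih fun c' hc' => h c' (List.mem_cons_of_mem _ hc')
    have h2 := List.length_pos_of_ne_nil (h c List.mem_cons_self)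
    simp only [List.length_cons, List.flatten_cons, List.length_append]
    omega

theorem dU_le (U : List Ent) (s t : List ℕ) : dU U s t ≤ s.length := by
  unfold dU
  split_ifs
  · exact Nat.zero_le _
  · exact ov_le_left s t

end OptB

open OptB

/-- O: the bound at a terminal state. -/
theorem xOpt_of (hLoc : XLoc) (hXT : XT) (hRep : XRep) : XOpt := by
  intro asg hasg M Q S s T hM hS hI hTerm hTS
  classical
  have hnd := hS.nodup
  have h0 : [] ∉ S := fun h => hS.1 _ h rfl
  -- members of the classes
  have hsub : ∀ e ∈ s.1, ∀ t ∈ e.1, t ∈ S := by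
    intro e he t ht
    obtain ⟨c, -, h1, -⟩ := (hI.ent e he).wit
    rw [h1] at ht
    exact (List.mem_filter.1 ht).1
  have hlen : ∀ e ∈ s.1, ∀ t ∈ e.1, t.length ≤ (repD e.1 e.2.1).length := by
    intro e he t ht
    obtain ⟨c, hc, h1, h2⟩ := (hI.ent e he).wit
    obtain ⟨_, hr⟩ := hRep S c hS hc
    rw [h1] at ht
    rw [h1, h2]
    exact (hr.cont t ht).length_le
  have hex : ∀ e ∈ s.1, ∃ t ∈ e.1, t ∈ S := by
    intro e he
    obtain ⟨c, hc, h1, h2⟩ := (hI.ent e he).wit
    obtain ⟨_, hr⟩ := hRep S c hS hc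
    have h3 := List.head_mem hc.ne
    rw [h1]
    exact ⟨_, hr.sub _ h3, hc.sub _ h3⟩
  by_cases hS0 : S = []
  · have h1 : s.1 = [] := by
      rw [List.eq_nil_iff_forall_not_mem]
      intro e he
      obtain ⟨t, -, ht⟩ := hex e he
      rw [hS0] at ht
      simp at ht
    have h2 : s.2 = [] := by
      rw [List.eq_nil_iff_forall_not_mem]
      intro c hc
      obtain ⟨x, hx⟩ := List.exists_mem_of_ne_nil c (hI.ne c hc)
      have h3 : x ∈ S := hI.perm.mem_iff.1 (List.mem_flatten.2 ⟨c, hc, hx⟩)
      rw [hS0] at h3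
      simp at h3
    simp [cC, penU, h1, h2]
  set B := s.1 with hBdef
  -- the gates
  have hg0 : ∀ k : Fin B.length, ∃ o : Option (Fin S.length),
      (o.map S.get).getD [] = (B.get k).2.2 ∧ ∀ x, o = some x → x ∈ cD S B k := by
    intro k
    rcases (hI.ent _ (List.get_mem B k)).gate with h1 | h1
    · exact ⟨none, by simpa using h1.symm, by simp⟩
    · obtain ⟨i, hi⟩ := List.get_of_mem (hsub _ (List.get_mem B k) _ h1)
      refine ⟨some i, by simpa using hi, ?_⟩
      intro x hx
      rw [Option.some.injEq] at hx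
      subst hx
      rw [mem_cD, hi]
      exact h1
  choose g0 hg1 hg2 using hg0
  have hself : mkU S B g0 = B := by
    unfold mkU
    have h1 : (fun k : Fin B.length => ((B.get k).1, (B.get k).2.1, ((g0 k).map S.get).getD [])) =
        B.get := by
      funext k
      rw [hg1 k]
    rw [h1]
    exact List.ofFn_get B
  obtain ⟨X, hX⟩ := perm_of_cover (dU B) S hnd s.2 hI.perm
  obtain ⟨σ, z, hσ1, hσ2⟩ := hXT S T hS hS0 hTS
  have hh : ∀ k : Fin B.length, ∃ i, i ∈ cD S B k ∧ (i = z ∨ σ i ∉ cD S B k) := by
    intro k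
    obtain ⟨i, hi1, hi2⟩ := hσ2 (B.get k).1 (hex _ (List.get_mem B k))
    refine ⟨i, mem_cD.2 hi1, ?_⟩
    rcases hi2 with h | h
    · exact Or.inl h
    · exact Or.inr fun h' => h (mem_cD.1 h')
  choose hst hhst using hh
  have key := hLoc (Fin S.length) (Fin B.length) (cD S B)
    (fun k => pD (B.get k).1 (B.get k).2.1) (fun i => (S.get i).length)
    (fun i j => (S.get i).length - ov (S.get i) (S.get j)) M g0 X σ z hst T.length
    (fun x y => Nat.sub_le _ _) hM (fun k x h => hg2 k x h) hhst hσ1 ?_
  · rw [← cost_mkU h0 hnd g0 X, ← penU_mkU h0 g0, hself, ← hX] at key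
    have e1 : ∑ k : Fin B.length, pD (B.get k).1 (B.get k).2.1 = pAll B := by
      rw [pAll, sum_map_get]
    rw [e1] at key
    have e2 : (B.map (fun e => (repD e.1 e.2.1).length)).sum =
        ∑ k : Fin B.length, (repD (B.get k).1 (B.get k).2.1).length := sum_map_get _ _
    have h1 : ∑ k : Fin B.length, ((g0 k).map fun i => (S.get i).length).getD 0 ≤
        ∑ k : Fin B.length, (repD (B.get k).1 (B.get k).2.1).length := by
      refine Finset.sum_le_sum fun k _ => ?_
      cases hk : g0 k with
      | none => simp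
      | some x =>
        simp only [Option.map_some, Option.getD_some]
        exact hlen _ (List.get_mem B k) _ (mem_cD.1 (hg2 k x hk))
    have h2 : ∑ k : Fin B.length, (S.get (hst k)).length ≤
        ∑ k : Fin B.length, (repD (B.get k).1 (B.get k).2.1).length :=
      Finset.sum_le_sum fun k _ => hlen _ (List.get_mem B k) _ (mem_cD.1 (hhst k).1)
    have e3 : cC s = (s.2.map (dW (dU B))).sum := rfl
    rw [e2, e3]
    refine le_trans key ?_
    have h3 : (∑ k : Fin B.length, ((g0 k).map fun i => (S.get i).length).getD 0) +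
        ∑ k : Fin B.length, (S.get (hst k)).length ≤
        2 * ∑ k : Fin B.length, (repD (B.get k).1 (B.get k).2.1).length := by omega
    have h4 := Nat.mul_le_mul_left 8 h3
    omega
  · -- local optimality
    intro l hl Y
    rw [← cost_mkU h0 hnd g0 X, ← penU_mkU h0 g0, ← cost_mkU h0 hnd _ Y, ← penU_mkU h0 _,
      ← foldl_mkU h0 hnd hsub l g0, hself, ← hX]
    set V := (l.map (toL S)).foldl (fun U q => app q U) B with hV
    have hVmem : V ∈ nbs S (2 * M) B := by
      refine foldl_mem_nbs S B _ _ (by rw [List.length_map]; exact hl) ?_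
      intro q hq
      obtain ⟨q', -, rfl⟩ := List.mem_map.1 hq
      refine ⟨List.get_mem _ _, ?_⟩
      simp only [toL]
      cases q'.2 with
      | none => exact Or.inl rfl
      | some y => exact Or.inr (List.get_mem _ _)
    have hVlen : V.length = B.length := by
      rw [hV]
      have h1 := foldl_mkU h0 hnd hsub l g0
      rw [hself] at h1
      rw [h1, length_mkU]
    obtain ⟨hcov, -, hmin⟩ := blkCov asg hasg (dU V) S hnd (fun s _ t _ => dU_le V s t)
    have hm := hTerm (V, dOpt asg (dU V) S) (by
      unfold cands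
      refine List.mem_append_left _ (List.mem_append_left _ ?_)
      exact List.mem_map.2 ⟨V, hVmem, rfl⟩)
    have hc : (dOpt asg (dU V) S).length ≤ S.length := by
      rw [← hcov.perm.length_eq]
      exact length_le_flatten _ hcov.ne
    unfold meas at hm
    simp only [hVlen] at hm
    rw [← hBdef] at hm
    have hphi : phi s ≤ phi (V, dOpt asg (dU V) S) := by
      by_contra hcon
      have h1 : (phi (V, dOpt asg (dU V) S) + 1) * (S.length + 1) ≤ phi s * (S.length + 1) :=
        Nat.mul_le_mul_right _ (by omega)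
      rw [Nat.add_mul] at h1
      omega
    have h1 : phi s = 8 * (s.2.map (dW (dU B))).sum + penU B := rfl
    have h2 : phi (V, dOpt asg (dU V) S) = 8 * ((dOpt asg (dU V) S).map (dW (dU V))).sum + penU V :=
      rfl
    have h3 := hmin Y
    omega

end Vale.Agent.P333.X
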