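import Vale.Agent.P333.X.PTd

set_option linter.all false

/-!
P333, ratio `13/6 + ε`: the algorithm runs in polynomial time.
-/

namespace Vale.Agent.P333.X

open Vale.Agent.P333 Vale.Agent.P333.U Vale.Agent.P333.E Vale.Agent.P333.G Vale.Agent.Lib.PolyTime

variable {A : Set Word} {α β γ : Type*} [Enc α] [Enc β] [Enc γ]

theorem PT_repX {S : α → List (List ℕ)} {d : α → List ℕ → List ℕ → ℕ} {c : α → List (List ℕ)}
    (hS : PT A S) (hd : PTD A d) (hc : PT A c) : PT A (fun a => repX (S a) (d a) (c a)) := by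
  unfold repX
  refine PT.ite (p := fun a => bigC (d a) (c a) = true)
    ((PT_bigC hd hc).congr fun a => Bool.decide_eq_true.symm)
    (PT_repD (PT_famD hS hc) (PT_perC hc)) (PT_shortest ?_ (PT_mergeL hc))
  exact PT.map (f := fun a i => mergeL ((c a).rotate i)) (PT.range hc.length (PBd.length hc))
    (PT_mergeL (PT_rotate (hc.comp PT.fst') PT.snd'))

theorem PT_repsX {S : α → List (List ℕ)} {s : α → St} (hS : PT A S) (hs : PT A s) :
    PT A (fun a => repsX (S a) (s a)) := by
  unfold repsX
  exact PT.map (f := fun a c => repX (S a) (dU (s a).1) c) hs.snd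
    (PT_repX (hS.comp PT.fst') ((PTD_dU hs.fst).comp PT.fst') PT.snd')

/-- P: polynomial time. -/
theorem xPT : XPT := by
  intro run atsp hr ha
  unfold algX
  exact PT_stageW ha (PT_repsX PT.id hr)

end Vale.Agent.P333.X
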