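import Vale.Agent.P333.X.Defs
import Vale.Agent.P333.G.Root

set_option linter.all false

/-!
P333, ratio `13/6 + ε`, block R: the representative of the class of a big circle.
-/

namespace Vale.Agent.P333.X

open Vale.Agent.P333 Vale.Agent.P333.U Vale.Agent.P333.G

namespace Rep155

theorem rotate_rwin {Z : ℕ → ℕ} {W : ℕ} (hZW : ∀ k, Z (k + W) = Z k) (n : ℕ) :
    (rwin Z 0 W).rotate n = rwin Z n W := by
  apply List.ext_getElem
  · rw [List.length_rotate, rwin_length, rwin_length]
  · intro i h1 h2
    rw [rwin_length] at h2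
    rw [List.getElem_rotate]
    simp only [rwin, List.getElem_map, List.getElem_range, List.length_map, List.length_range,
      Nat.zero_add]
    have h3 : (i + n) % W + W * ((i + n) / W) = i + n := Nat.mod_add_div _ _
    rw [← per_mul hZW ((i + n) % W) ((i + n) / W), h3, Nat.add_comm]

theorem per_iff {c : List (List ℕ)} (hw : 0 < cycW c) (q : ℕ) :
    ((mergeL c).take (cycW c)).rotate q = (mergeL c).take (cycW c) ↔
      ∀ k, cycWord c (k + q) = cycWord c k := by
  rw [take_mergeL hw, rotate_rwin (cycWord_add c), rwin_eq]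
  constructor
  · intro h k
    have h1 := h (k % cycW c) (Nat.mod_lt _ hw)
    rw [Nat.zero_add] at h1
    conv_rhs => rw [← Nat.mod_add_div k (cycW c)]
    conv_lhs => rw [← Nat.mod_add_div k (cycW c)]
    rw [Nat.mul_comm (cycW c), cycWord_add_mul, ← h1, Nat.add_right_comm, cycWord_add_mul,
      Nat.add_comm q]
  · intro h t _
    rw [Nat.zero_add, Nat.add_comm, h]

theorem perC_spec {c : List (List ℕ)} (hw : 0 < cycW c) :
    0 < perC c ∧ perC c ≤ cycW c ∧ (∀ k, cycWord c (k + perC c) = cycWord c k) ∧
      ∀ q, 0 < q → q < perC c → ¬ ∀ k, cycWord c (k + q) = cycWord c k := by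
  unfold perC
  cases hf : (List.range (cycW c)).find? (fun q =>
    decide (((mergeL c).take (cycW c)).rotate (q + 1) = (mergeL c).take (cycW c))) with
  | none =>
    exfalso
    rw [List.find?_eq_none] at hf
    have h := hf (cycW c - 1) (List.mem_range.2 (by omega))
    apply h
    rw [decide_eq_true_eq, per_iff hw, show cycW c - 1 + 1 = cycW c by omega]
    exact cycWord_add c
  | some q =>
    rw [Option.getD_some]
    have hlt : q < cycW c := by
      have := List.mem_of_find?_eq_some hf
      exact List.mem_range.1 this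
    have hq : ∀ k, cycWord c (k + (q + 1)) = cycWord c k := by
      have := List.find?_some hf
      rw [decide_eq_true_eq, per_iff hw] at this
      exact this
    refine ⟨by omega, by omega, hq, ?_⟩
    intro r hr hrq hper
    rw [List.find?_range_eq_some] at hf
    have h := hf.2.2 (r - 1) (by omega)
    simp only [Bool.not_eq_true', decide_eq_false_iff_not] at h
    apply h
    rw [per_iff hw, show r - 1 + 1 = r by omega]
    exact hper

end Rep155

open Rep155

theorem xRep : XRep := by
  intro S c hS hB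
  have hnd := hB.nodup
  have hc := hB.ne
  have hcS := hB.sub
  have hov := hB.big
  have hne : ∀ s ∈ c, s ≠ [] := fun s hs => hS.1 s (hcS s hs)
  have hW : 0 < cycW c := cycW_pos hc hne
  have hZW : ∀ k, cycWord c (k + cycW c) = cycWord c k := cycWord_add c
  obtain ⟨hp0, hpW, hper, hmin⟩ := perC_spec hW
  obtain ⟨p, hpdef⟩ : ∃ p, p = perC c := ⟨_, rfl⟩
  rw [← hpdef] at hp0 hpW hper hmin
  have hP : Per (cycWord c) p := ⟨hp0, hper, hmin⟩
  have hwin0 := window_big hc hW hov
  have hD : ∀ {s}, s ∈ famD S c ↔ s ∈ S ∧ ∃ a, OccAt (cycWord c) s a := mem_famD hW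
  have hcD : ∀ s ∈ c, s ∈ famD S c := fun s hs => hD.2 ⟨hcS s hs, occurs hW hs⟩
  -- all strings are long
  have hbig : ∀ x ∈ famD S c, cycW c + 1 ≤ x.length := by
    intro x hx
    by_contra hlt
    obtain ⟨hxS, a, ha⟩ := hD.1 hx
    obtain ⟨s, hs, hin⟩ := hwin0 a
    have h1 : x <:+: rwin (cycWord c) a (cycW c + 1) := by
      rw [occAt_iff.1 ha]
      exact rwin_sub _ (le_refl _) (by omega)
    have h2 := sfree_eq hS hxS (hcS s hs) (h1.trans hin)
    have h3 := hin.length_le
    rw [rwin_length, ← h2] at h3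
    omega
  -- the loop word contains everything
  have hloop : ∀ x ∈ famD S c, ∀ s ∈ famD S c, s <:+: x.take p ++ x := by
    intro x hx s hs
    obtain ⟨hxS, a, ha⟩ := hD.1 hx
    obtain ⟨hsS, b0, hb0⟩ := hD.1 hs
    by_cases hsx : s = x
    · rw [hsx]
      exact (List.suffix_append _ _).isInfix
    · obtain ⟨b, hb1, hb2, hb3⟩ := exists_start hP.pos b0 a
      have hb : OccAt (cycWord c) s b := occ_mod hP.per hb0 hb3
      have hend : b + s.length ≤ a + p + x.length := by
        by_contra hlt
        refine hsx (sfree_eq hS hxS hsS ?_).symm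
        have ha2 : OccAt (cycWord c) x (a + p) := occ_mod hP.per ha (by rw [Nat.add_mod_right])
        rw [occAt_iff.1 ha2, occAt_iff.1 hb]
        exact rwin_sub _ (by omega) (by omega)
      have := hbig x hx
      rw [loop_eq hper ha (by omega), occAt_iff.1 hb]
      exact rwin_sub _ hb1 (by omega)
  -- good lengths
  let Good : ℕ → Prop := fun l => ∀ k, ∃ x ∈ famD S c, ∃ a j, OccAt (cycWord c) x a ∧
    j + l ≤ x.length ∧ (a + j) % p = k % p
  have hgood : Good (cycW c + 1) := by
    intro k
    obtain ⟨s, hs, hin⟩ := hwin0 k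
    obtain ⟨hsS, a, ha⟩ := hD.1 (hcD s hs)
    rw [occAt_iff.1 ha] at hin
    obtain ⟨b, hb1, hb2, hb3⟩ := occ_of_infix_rwin hin
    rw [rwin_length] at hb2
    refine ⟨s, hcD s hs, a, b - a, ha, by omega, ?_⟩
    rw [show a + (b - a) = b by omega]
    refine (mod_eq_of_win hP hZW hW fun i hi => ?_).symm
    have := hb3 i (by rw [rwin_length]; omega)
    rw [← this]
    simp [rwin]
  obtain ⟨l, hl1, hl2, hl3⟩ : ∃ l, cycW c + 1 ≤ l ∧ Good l ∧ ¬ Good (l + 1) := by
    by_contra hcon
    push Not at hcon
    have hall : ∀ m, Good (cycW c + 1 + m) := by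
      intro m
      induction m with
      | zero => exact hgood
      | succ m ih => exact hcon (cycW c + 1 + m) (by omega) ih
    obtain ⟨x, hx, a, j, -, h2, -⟩ := hall (((famD S c).map List.length).sum) 0
    have : x.length ≤ ((famD S c).map List.length).sum :=
      List.le_sum_of_mem (List.mem_map.2 ⟨x, hx, rfl⟩)
    omega
  obtain ⟨k, hk⟩ : ∃ k, ∀ x ∈ famD S c, ∀ a j, OccAt (cycWord c) x a → j + (l + 1) ≤ x.length →
      (a + j) % p ≠ k % p := by
    by_contra hcon
    push Not at hcon
    refine hl3 fun k => ?_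
    obtain ⟨x, hx, a, j, h1, h2, h3⟩ := hcon k
    exact ⟨x, hx, a, j, h1, h2, h3⟩
  obtain ⟨x, hx, a, j, hxa, hjl, hmod⟩ := hl2 (k + 1)
  have hj : j = 0 := by
    by_contra hj0
    refine hk x hx a (j - 1) hxa (by omega) ?_
    have h1 : a + (j - 1) + 1 ≡ k + 1 [MOD p] := by
      rw [show a + (j - 1) + 1 = a + j by omega]
      exact hmod
    exact Nat.ModEq.add_right_cancel' 1 h1
  subst hj
  have hxA : OccAt (cycWord c) x (k + 1) := occ_mod hP.per hxa (by simpa using hmod)
  have hxbig := hbig x hx
  -- every string lies in the window of length `p + l - 1` at `k + 1`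
  have hfit : ∀ s ∈ famD S c, s <:+: rwin (cycWord c) (k + 1) (p + (l - 1)) := by
    intro s hs
    obtain ⟨hsS, b0, hb0⟩ := hD.1 hs
    obtain ⟨b, hb1, hb2, hb3⟩ := exists_start hP.pos b0 (k + 1)
    have hb : OccAt (cycWord c) s b := occ_mod hP.per hb0 hb3
    have hend : b + s.length ≤ k + 1 + (p + (l - 1)) := by
      by_contra hlt
      refine hk s hs b (k + p - b) hb (by omega) ?_
      rw [show b + (k + p - b) = k + p by omega, Nat.add_mod_right]
    rw [occAt_iff.1 hb]
    exact rwin_sub _ hb1 hend
  have hprx : (prW (famD S c) p x).length ≤ p + (l - 1) := by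
    refine prW_len (by omega) ?_
    intro s hs
    have e : (x.take p ++ x).take (p + (l - 1)) =
        rwin (cycWord c) (k + 1) (p + (l - 1)) := by
      rw [loop_eq hper hxA (by omega),
        show p + x.length = (p + (l - 1)) + (p + x.length - (p + (l - 1))) by omega,
        rwin_add, List.take_append_of_le_length (by rw [rwin_length]),
        List.take_of_length_le (by rw [rwin_length])]
    rw [e]
    exact hfit s hs
  have hhead : (famD S c).headD [] ∈ famD S c := by
    cases hL : famD S c with
    | nil => rw [hL] at hx; exact absurd hx (by simp)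
    | cons s r => simp
  -- the representative
  obtain ⟨x', hx', hrep⟩ : ∃ x' ∈ famD S c, repD (famD S c) p = prW (famD S c) p x' := by
    rcases foldMin_mem ((famD S c).map (prW (famD S c) p))
      (prW (famD S c) p ((famD S c).headD [])) with h | h
    · exact ⟨_, hhead, h⟩
    · obtain ⟨y, hy, hy2⟩ := List.mem_map.1 h
      exact ⟨y, hy, hy2.symm⟩
  obtain ⟨hx'S, a', ha'⟩ := hD.1 hx'
  have hx'big := hbig x' hx'
  subst hpdef
  refine ⟨l - 1, hp0, hpW, hper, hmin, ?_, ?_, ?_, hcD, ?_⟩
  · intro k'
    obtain ⟨y, hy, b, j, hyb, hj, hm⟩ := hl2 k'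
    refine ⟨y, (hD.1 hy).1, ?_⟩
    have e : (List.range (l - 1 + 1)).map (fun j => cycWord c (k' + j)) =
        rwin (cycWord c) (b + j) l := by
      rw [show l - 1 + 1 = l by omega]
      change rwin (cycWord c) k' l = _
      rw [rwin_eq]
      intro t _
      rw [← per_mod hP.per (k' + t), ← per_mod hP.per (b + j + t), Nat.add_mod, ← hm, ← Nat.add_mod]
    rw [e, occAt_iff.1 hyb]
    exact rwin_sub _ (by omega) (by omega)
  · exact ((foldMin_le ((famD S c).map (prW (famD S c) (perC c)))
      (prW (famD S c) (perC c) ((famD S c).headD []))).2 _ (List.mem_map.2 ⟨x, hx, rfl⟩)).trans hprx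
  · intro s hs
    rw [hrep]
    exact prW_all (by omega) (hloop x' hx') s hs
  · refine ⟨x', hx'S, x'.take (perC c), List.length_take_le _ _, ?_, ?_⟩
    · rw [loop_eq hper ha' (by omega), Nat.add_comm, rwin_add, ← occAt_iff.1 ha']
      exact List.prefix_append _ _
    · rw [hrep]
      exact prW_prefix _ _ _

end Vale.Agent.P333.X
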