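import Vale.Agent.P333.X.PTd

set_option linter.all false

/-!
P333, ratio `13/6 + ε`: the candidates of a step are computable in polynomial time.
-/

namespace Vale.Agent.P333.X

open Vale.Agent.P333 Vale.Agent.P333.U Vale.Agent.P333.E Vale.Agent.P333.G Vale.Agent.Lib.PolyTime

variable {A : Set Word} {α β γ : Type*} [Enc α] [Enc β] [Enc γ]

/-- A Boolean test. -/
theorem PT.iteB {c : α → Bool} {f g : α → β} (hc : PT A c) (hf : PT A f) (hg : PT A g) :
    PT A (fun a => if c a = true then f a else g a) :=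
  PT.ite (p := fun a => c a = true) (hc.congr fun a => Bool.decide_eq_true.symm) hf hg

theorem PT_eqCirc {f g : α → List (List ℕ)} (hf : PT A f) (hg : PT A g) :
    PT A (fun a => decide (f a = g a)) :=
  ((eqPT_list (A := A) eqPT_str).eq hf hg).congr fun a => by
    rw [Bool.eq_iff_iff]

theorem erase_eq_tw {δ : Type*} [DecidableEq δ] [BEq δ] [LawfulBEq δ] (l : List δ) (x : δ) :
    l.erase x = l.takeWhile (fun y => !decide (y = x)) ++
      (l.dropWhile (fun y => !decide (y = x))).tail := by
  induction l with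
  | nil => rfl
  | cons y l ih =>
    by_cases h : y = x
    · subst h
      simp
    · rw [List.erase_cons_tail (by simpa using h)]
      simp [h, ih]

theorem PT_eraseCirc {l : α → List (List (List ℕ))} {x : α → List (List ℕ)} (hl : PT A l)
    (hx : PT A x) : PT A (fun a => (l a).erase (x a)) := by
  have h : PT A (fun p : α × List (List ℕ) => !decide (p.2 = x p.1)) :=
    (PT_eqCirc PT.snd' (hx.comp PT.fst')).not
  exact (PT.append (PT.takeWhile (f := fun a y => !decide (y = x a)) hl h)
    (PT.dropWhile (f := fun a y => !decide (y = x a)) hl h).tail).congr fun a =>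
      (erase_eq_tw _ _).symm

theorem PT_app {x y : α → List ℕ} {U : α → List Ent} (hx : PT A x) (hy : PT A y) (hU : PT A U) :
    PT A (fun a => app (x a, y a) (U a)) := by
  unfold app
  refine PT.map (f := fun a (e : Ent) => (if decide (x a ∈ e.1) && !decide (y a ∈ e.1) then
    (e.1, e.2.1, x a) else if decide (e.2.2 = x a) then (e.1, e.2.1, []) else e : Ent)) hU ?_
  refine PT.iteB (c := fun p : α × Ent => decide (x p.1 ∈ p.2.1) && !decide (y p.1 ∈ p.2.1))
    (PT.and (PT_memStr PT.snd'.fst (hx.comp PT.fst')) (PT_memStr PT.snd'.fst (hy.comp PT.fst')).not)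
    (PT.snd'.fst.pair (PT.snd'.snd.fst.pair (hx.comp PT.fst'))) ?_
  exact PT.iteB (c := fun p : α × Ent => decide (p.2.2.2 = x p.1))
    (PT_eqStr PT.snd'.snd.snd (hx.comp PT.fst'))
    (PT.snd'.fst.pair (PT.snd'.snd.fst.pair (PT.const []))) PT.snd'

theorem PT_nbs (k : ℕ) {S : α → List (List ℕ)} {U : α → List Ent} (hS : PT A S) (hU : PT A U) :
    PT A (fun a => nbs (S a) k (U a)) := by
  induction k with
  | zero => exact PT.cons hU PT.nil
  | succ k ih =>
    refine PT.flatMap (f := fun a V => V :: (S a).flatMap (fun x => ([] :: S a).map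
      (fun y => app (x, y) V))) ih (PT.cons PT.snd' ?_)
    refine PT.flatMap (f := fun (p : α × List Ent) x => ([] :: S p.1).map
      (fun y => app (x, y) p.2)) (hS.comp PT.fst') ?_
    refine PT.map (f := fun (q : (α × List Ent) × List ℕ) y => app (q.2, y) q.1.2)
      (PT.cons (PT.const []) (hS.comp PT.fst'.fst)) ?_
    exact PT_app PT.fst'.snd PT.snd' PT.fst'.fst.snd

theorem PT_regate {m : α → List (List ℕ)} {e : α → Ent} (hm : PT A m) (he : PT A e) :
    PT A (fun a => regate (m a) (e a)) := by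
  unfold regate
  have hc := PT_cprs hm
  refine PT.iteB (c := fun a => (cprs [] (m a)).any (fun b => decide (b.1 = (e a).2.2) &&
    decide (b.2 ∈ (e a).1))) ?_ ?_ he
  · exact PT.any (f := fun a (b : List ℕ × List ℕ) => decide (b.1 = (e a).2.2) &&
      decide (b.2 ∈ (e a).1)) hc (PT.and (PT_eqStr PT.snd'.fst (he.comp PT.fst').snd.snd)
        (PT_memStr (he.comp PT.fst').fst PT.snd'.snd))
  · refine (PT.optCase (o := fun a => (cprs [] (m a)).find? (fun b => decide (b.1 ∈ (e a).1) &&
      !decide (b.2 ∈ (e a).1))) (g := fun a (b : List ℕ × List ℕ) =>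
        (((e a).1, (e a).2.1, b.1) : Ent)) ?_ he ?_).congr fun a => ?_
    · exact PT.find? (f := fun a (b : List ℕ × List ℕ) => decide (b.1 ∈ (e a).1) &&
        !decide (b.2 ∈ (e a).1)) hc (PT.and (PT_memStr (he.comp PT.fst').fst PT.snd'.fst)
          (PT_memStr (he.comp PT.fst').fst PT.snd'.snd).not)
    · exact (he.comp PT.fst').fst.pair ((he.comp PT.fst').snd.fst.pair PT.snd'.fst)
    · cases (cprs [] (m a)).find? (fun b => decide (b.1 ∈ (e a).1) && !decide (b.2 ∈ (e a).1)) <;>
        rfl

theorem PT_mrg {s : α → St} {c c2 : α → List (List ℕ)} {i j : α → ℕ} (hs : PT A s) (hc : PT A c)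
    (hc2 : PT A c2) (hi : PT A i) (hj : PT A j) :
    PT A (fun a => mrg (s a) (c a) (c2 a) (i a) (j a)) := by
  unfold mrg
  have hm : PT A (fun a => (c a).rotate (i a) ++ (c2 a).rotate (j a)) :=
    PT.append (PT_rotate hc hi) (PT_rotate hc2 hj)
  refine PT.pair (PT.map (f := fun a e => regate ((c a).rotate (i a) ++ (c2 a).rotate (j a)) e)
    hs.fst (PT_regate (hm.comp PT.fst') PT.snd')) (PT.cons hm ?_)
  exact PT_eraseCirc (PT_eraseCirc hs.snd hc) hc2

theorem PT_listed {S : α → List (List ℕ)} {U : α → List Ent} {c : α → List (List ℕ)}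
    (hS : PT A S) (hU : PT A U) (hc : PT A c) : PT A (fun a => listed (S a) (U a) (c a)) := by
  unfold listed
  refine PT.any (f := fun a (e : Ent) => decide (e.1 = famD (S a) (c a)) &&
    decide (e.2.1 = perC (c a))) hU ?_
  exact PT.and (PT_eqCirc PT.snd'.fst ((PT_famD hS hc).comp PT.fst'))
    (PT.eqNat PT.snd'.snd.fst ((PT_perC hc).comp PT.fst'))

theorem PT_cand1 {asg : List Unit × List (List ℕ) → List ℕ} (ha : PT A asg) (K : ℕ)
    {S : α → List (List ℕ)} {s : α → St} (hS : PT A S) (hs : PT A s) :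
    PT A (fun a => cand1 asg K (S a) (s a)) := by
  unfold cand1
  refine PT.map (f := fun a V => ((V, dOpt asg (dU V) (S a)) : St)) (PT_nbs K hS hs.fst) ?_
  exact PT.snd'.pair (PT_dOptD ha (PTD_dU PT.snd') (hS.comp PT.fst'))

theorem PT_cand2 {s : α → St} (hs : PT A s) : PT A (fun a => cand2 (s a)) := by
  unfold cand2
  refine PT.flatMap (f := fun a c => (s a).2.flatMap (fun c2 => if decide (c = c2) then [] else
    (List.range c.length).flatMap (fun i => (List.range c2.length).map
      (fun j => mrg (s a) c c2 i j)))) hs.snd ?_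
  refine PT.flatMap (f := fun (p : α × List (List ℕ)) c2 => if decide (p.2 = c2) then [] else
    (List.range p.2.length).flatMap (fun i => (List.range c2.length).map
      (fun j => mrg (s p.1) p.2 c2 i j))) (hs.comp PT.fst').snd ?_
  refine PT.iteB (c := fun q : (α × List (List ℕ)) × List (List ℕ) => decide (q.1.2 = q.2))
    (PT_eqCirc PT.fst'.snd PT.snd') PT.nil ?_
  refine PT.flatMap (f := fun (q : (α × List (List ℕ)) × List (List ℕ)) i =>
    (List.range q.2.length).map (fun j => mrg (s q.1.1) q.1.2 q.2 i j))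
    (PT.range PT.fst'.snd.length (PBd.length (PT.fst'.snd (A := A)))) ?_
  refine PT.map (f := fun (r : ((α × List (List ℕ)) × List (List ℕ)) × ℕ) j =>
    mrg (s r.1.1.1) r.1.1.2 r.1.2 r.2 j)
    (PT.range PT.fst'.snd.length (PBd.length (PT.fst'.snd (A := A)))) ?_
  exact PT_mrg (hs.comp PT.fst'.fst.fst.fst) PT.fst'.fst.fst.snd PT.fst'.fst.snd PT.fst'.snd PT.snd'

theorem PT_cand3 (Q : ℕ) {S : α → List (List ℕ)} {s : α → St} (hS : PT A S) (hs : PT A s) :
    PT A (fun a => cand3 Q (S a) (s a)) := by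
  unfold cand3
  have hS' : PT A (fun p : α × List (List ℕ) => S p.1) := hS.comp PT.fst'
  have hU' : PT A (fun p : α × List (List ℕ) => (s p.1).1) := (hs.comp PT.fst').fst
  have h1 : PT A (fun p : α × List (List ℕ) => perC p.2) := PT_perC PT.snd'
  have h2 : PT A (fun p : α × List (List ℕ) => famD (S p.1) p.2) := PT_famD hS' PT.snd'
  refine PT.map (f := fun a c => (((s a).1 ++ [(famD (S a) c, perC c, [])], (s a).2) : St))
    (PT.filter (f := fun a c => bigC (dU (s a).1) c && !listed (S a) (s a).1 c &&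
      decide (perC c ≤ Q * pD (famD (S a) c) (perC c))) hs.snd ?_) ?_
  · exact PT.and (PT.and (PT_bigC (PTD_dU hU') PT.snd') (PT_listed hS' hU' PT.snd').not)
      (PT.le h1 (PT.mul (PT.const Q) (PT_pD h2 h1)))
  · exact PT.pair (PT.append hU' (PT.cons (PT.pair h2 (PT.pair h1 (PT.const []))) PT.nil))
      (hs.comp PT.fst').snd

theorem PT_cands {asg : List Unit × List (List ℕ) → List ℕ} (ha : PT A asg) (K Q : ℕ)
    {S : α → List (List ℕ)} {s : α → St} (hS : PT A S) (hs : PT A s) :
    PT A (fun a => cands asg K Q (S a) (s a)) :=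
  PT.append (PT.append (PT_cand1 ha K hS hs) (PT_cand2 hs)) (PT_cand3 Q hS hs)

end Vale.Agent.P333.X
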