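import Vale.Agent.P333.X.RunSpec
import Vale.Agent.P333.X.PTc

set_option linter.all false

/-!
P333, ratio `13/6 + ε`: the run of the moves is computable in polynomial time.
-/

namespace Vale.Agent.P333.X.RunX

open Vale.Agent.P333 Vale.Agent.P333.U Vale.Agent.P333.E Vale.Agent.P333.G Vale.Agent.P333.X
open Vale.Agent.Lib.PolyTime

variable {A : Set Word} {α β γ : Type*} [Enc α] [Enc β] [Enc γ]

theorem esize_circles {L : List (List (List ℕ))} (h : ∀ c ∈ L, c ≠ []) :
    esize L ≤ 3 * esize L.flatten := by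
  induction L with
  | nil => simp [esize_list_nil]
  | cons c L ih =>
    have h1 := ih fun b hb => h b (List.mem_cons_of_mem _ hb)
    have h2 : 1 ≤ esize c := by
      obtain ⟨x, r, rfl⟩ := List.exists_cons_of_ne_nil (h c (by simp))
      rw [esize_list_cons]
      omega
    rw [esize_list_cons, List.flatten_cons, esize_append]
    omega

theorem esize_ent {Q : ℕ} {S : List (List ℕ)} {e : Ent} (h : EOk Q S e) :
    esize e ≤ 5 * esize S + 2 := by
  obtain ⟨c, hc, h1, h2⟩ := h.wit
  have h3 : esize e.1 ≤ esize S := by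
    rw [h1]
    exact esize_le_of_sublist List.filter_sublist
  have h4 : esize e.2.1 ≤ esize S := by
    rw [h2]
    refine (esize_nat_le_self _).trans ((perC_le_len hc).trans ?_)
    exact (length_le_esize _).trans (esize_flatten_le S)
  have h5 : esize e.2.2 ≤ esize S := by
    rcases h.gate with h5 | h5
    · rw [h5, esize_list_nil]
      exact Nat.zero_le _
    · exact (esize_le_of_mem h5).trans h3
  have h6 : esize e = 2 * esize e.1 + (2 * esize e.2.1 + esize e.2.2 + 1) + 1 := by
    conv_lhs => rw [← Prod.mk.eta (p := e), ← Prod.mk.eta (p := e.2)]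
    rw [esize_pair, esize_pair]
  omega

theorem esize_iv {Q : ℕ} {S : List (List ℕ)} {s : St} (h : Iv Q S s) :
    esize s ≤ 2 * (esize S * (2 * (5 * esize S + 2) + 1)) + 3 * esize S + 1 := by
  have h1 : esize s.2 ≤ 3 * esize S := by
    refine (esize_circles h.1.ne).trans ?_
    rw [esize_perm h.1.perm]
  have h2 := esize_list_le (l := s.1) (B := 5 * esize S + 2) fun e he => esize_ent (h.1.ent e he)
  have h3 : s.1.length ≤ esize S := h.2.trans ((length_le_esize _).trans (esize_flatten_le S))
  have h4 : s.1.length * (2 * (5 * esize S + 2) + 1) ≤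
      esize S * (2 * (5 * esize S + 2) + 1) := Nat.mul_le_mul_right _ h3
  have h5 : esize s = 2 * esize s.1 + esize s.2 + 1 := by
    conv_lhs => rw [← Prod.mk.eta (p := s)]
    rw [esize_pair]
  have h6 : esize s.1 ≤ s.1.length * (2 * (5 * esize S + 2) + 1) := by
    refine h2.trans (le_of_eq ?_)
    ring
  omega

theorem PT_fx : PT A fx := by
  unfold fx
  refine PT.ite (p := fun S : List (List ℕ) => S.Pairwise (fun s t => s ≠ t)) ?_ PT.id (PT.const [])
  refine PT.pairwise (r := fun s t : List ℕ => s ≠ t) ?_ PT.id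
  exact (PT_eqStr PT.fst' PT.snd').not.congr fun p => by simp

theorem PT_s0 {S : α → List (List ℕ)} (hS : PT A S) : PT A (fun a => s0 (S a)) :=
  (PT.const []).pair (PT.map (f := fun _ x => [x]) hS (PT.cons PT.snd' PT.nil))

theorem PT_stepX {asg : List Unit × List (List ℕ) → List ℕ} (ha : PT A asg) (K Q : ℕ)
    {S : α → List (List ℕ)} {s : α → St} (hS : PT A S) (hs : PT A s) :
    PT A (fun a => stepX asg K Q (S a) (s a)) := by
  unfold stepX
  refine PT.optGetD (PT.find? (f := fun a s' => decide (meas (S a) s' < meas (S a) (s a)))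
    (PT_cands ha K Q hS hs) ?_) hs
  exact PT.lt (PT_meas (hS.comp PT.fst') PT.snd') (PT_meas (hS.comp PT.fst') (hs.comp PT.fst'))

theorem PT_runX {asg : List Unit × List (List ℕ) → List ℕ} (ha : PT ∅ asg) (hok : AsgOk asg)
    (K Q : ℕ) : PT ∅ (runX asg K Q) := by
  have hf : PT ∅ (fun S : List (List ℕ) => fx S) := PT_fx
  have hn1 : PT ∅ (fun S : List (List ℕ) => (fx S).flatten.length) := hf.flatten.length
  have hn2 : PT ∅ (fun S : List (List ℕ) => (fx S).length) := hf.length
  have hb1 : PBd (fun S : List (List ℕ) => (fx S).flatten.length) := PBd.length hf.flatten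
  have hb2 : PBd (fun S : List (List ℕ) => (fx S).length) := PBd.length hf
  have hn : PT ∅ (fun S : List (List ℕ) => bdX (fx S)) := by
    unfold bdX
    exact PT.add (PT.add (PT.add (PT.mul hn1 (PT.mul (PT.add hn1 (PT.const 1))
      (PT.add hn2 (PT.const 1)))) (PT.mul (PT.mul (PT.const 8) hn1) (PT.add hn2 (PT.const 1))))
      hn2) (PT.const 1)
  have hnb : PBd (fun S : List (List ℕ) => bdX (fx S)) := by
    unfold bdX
    exact (((hb1.mul ((hb1.add (PBd.const 1)).mul (hb2.add (PBd.const 1)))).add
      (((PBd.const 8).mul hb1).mul (hb2.add (PBd.const 1)))).add hb2).add (PBd.const 1)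
  unfold runX
  refine PT.foldl (init := fun S : List (List ℕ) => s0 (fx S))
    (f := fun (S : List (List ℕ)) s _ => stepX asg K Q (fx S) s)
    (b := fun S => 2 * (esize (fx S) * (2 * (5 * esize (fx S) + 2) + 1)) + 3 * esize (fx S) + 1)
    (PT.replicate hn hnb (PT.const ())) (PT_s0 hf)
    (PT_stepX ha K Q (hf.comp PT.fst') PT.snd'.fst) ?_ fun S i => ?_
  · have he : PBd (fun S : List (List ℕ) => esize (fx S)) := hf.pbd
    exact (((PBd.const 2).mul (he.mul (((PBd.const 2).mul (((PBd.const 5).mul he).add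
      (PBd.const 2))).add (PBd.const 1)))).add ((PBd.const 3).mul he)).add (PBd.const 1)
  · rw [List.take_replicate, iter_of_foldl]
    exact esize_iv (iv_iter hok (fx_nodup S) _)

end Vale.Agent.P333.X.RunX

namespace Vale.Agent.P333.X

open Vale.Agent.P333 Vale.Agent.P333.U Vale.Agent.P333.E Vale.Agent.P333.G Vale.Agent.Lib.PolyTime

/-- **F.** -/
theorem xRun : XRun := by
  intro asg ha hok K Q
  exact ⟨RunX.runX asg K Q, RunX.PT_runX ha hok K Q, fun S hS =>
    RunX.runX_spec hok K Q (RunX.nodup_of_sfree hS)⟩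

end Vale.Agent.P333.X
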