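import Vale.Agent.P333.X.Defs
import Vale.Agent.P333.G.Acc

set_option linter.all false

/-!
P333, ratio `13/6 + ε`: the sum of the `P` (block XSum).
-/

namespace Vale.Agent.P333.X

open Vale.Agent.P333 Vale.Agent.P333.U Vale.Agent.P333.E Vale.Agent.P333.G Vale.Agent.Lib.PolyTime

namespace SumB

open Vale.Agent.P333.G.AccB

theorem bigOk_pos {S c : List (List ℕ)} (hS : Sfree S) (h : BigOk S c) : 0 < cycW c :=
  cycW_pos h.ne fun s hs => hS.1 s (h.sub s hs)

/-- The class depends on the word only. -/
theorem famD_shf {S c c' : List (List ℕ)} (hc : 0 < cycW c) (hc' : 0 < cycW c')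
    (h : Shf (cycWord c) (cycWord c')) : famD S c = famD S c' := by
  unfold famD
  refine List.filter_congr fun s hs => ?_
  have h1 : infB s (pw c (s.length + 1)) = true ↔ infB s (pw c' (s.length + 1)) = true := by
    rw [infB_iff, infB_iff]
    constructor
    · intro h1
      exact pw_of_occ hc' (h.occ (occ_of_pw hc h1))
    · intro h1
      exact pw_of_occ hc ((h.symm hc' (cycWord_add c')).occ (occ_of_pw hc' h1))
  exact Bool.eq_iff_iff.2 h1

/-- Periods transfer. -/
theorem per_shf {W W' : ℕ → ℕ} {p q : ℕ} (hp : 0 < p) (hper : ∀ k, W' (k + p) = W' k)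
    (h : Shf W W') (hq : ∀ k, W (k + q) = W k) : ∀ k, W' (k + q) = W' k := by
  obtain ⟨s, hs⟩ := h.symm hp hper
  intro k
  rw [hs, hs, Nat.add_right_comm, hq]

theorem perC_shf {S c c' : List (List ℕ)} {e e' : ℕ} (hc : 0 < cycW c) (hc' : 0 < cycW c')
    (hr : RepSpec S c e) (hr' : RepSpec S c' e') (h : Shf (cycWord c) (cycWord c')) :
    perC c = perC c' := by
  rcases lt_trichotomy (perC c) (perC c') with h1 | h1 | h1
  · exact absurd (per_shf hc' (cycWord_add c') h hr.per) (hr'.prim _ hr.ppos h1)
  · exact h1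
  · exact absurd (per_shf hc (cycWord_add c) (h.symm hc' (cycWord_add c')) hr'.per)
      (hr.prim _ hr'.ppos h1)

end SumB

open SumB Vale.Agent.P333.G.AccB

/-- **S**: the sum of the `P` is at most the length of every superstring. -/
theorem xSum (hrep : XRep) : XSum := by
  classical
  intro Q S s T hS hs hT
  have h1 : ∀ e ∈ s.1, ∃ c, BigOk S c ∧ e.1 = famD S c ∧ e.2.1 = perC c := fun e he =>
    (hs.ent e he).wit
  choose! c hc hD hp using h1
  have h2 : ∀ e ∈ s.1, ∃ m, RepSpec S (c e) m := fun e he => hrep S (c e) hS (hc e he)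
  choose! m hm using h2
  have hpos : ∀ e ∈ s.1, 0 < cycW (c e) := fun e he => bigOk_pos hS (hc e he)
  have key := rauzyList T (s.1.map (fun e => (cycWord (c e), perC (c e), m e))) ?_ ?_ ?_ ?_ ?_
  · refine le_trans ?_ key
    unfold pAll
    rw [List.map_map]
    refine sum_le fun e he => ?_
    have h3 := (hm e he).len
    simp only [Function.comp_apply]
    unfold pD
    rw [hD e he, hp e he]
    omega
  · intro x hx
    obtain ⟨e, he, rfl⟩ := List.mem_map.1 hx
    exact (hm e he).ppos
  · intro x hx
    obtain ⟨e, he, rfl⟩ := List.mem_map.1 hx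
    exact (hm e he).per
  · intro x hx
    obtain ⟨e, he, rfl⟩ := List.mem_map.1 hx
    exact (hm e he).prim
  · rw [List.pairwise_map]
    have h3 := hs.nodup
    rw [List.Nodup, List.pairwise_map] at h3
    refine List.Pairwise.imp_of_mem ?_ h3
    intro e e' he he' hne hsh
    apply hne
    rw [hD e he, hD e' he', hp e he, hp e' he']
    rw [famD_shf (hpos e he) (hpos e' he') hsh,
      perC_shf (hpos e he) (hpos e' he') (hm e he) (hm e' he') hsh]
  · intro x hx
    obtain ⟨e, he, rfl⟩ := List.mem_map.1 hx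
    intro k
    obtain ⟨t, ht, hin⟩ := (hm e he).win k
    exact hin.trans (hT t ht)

end Vale.Agent.P333.X
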