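import Mathlib
import Vale.Agent.P333.X.Defs
import Vale.Agent.P333.G.Order

set_option linter.all false

/-!
P333, ratio `13/6 + ε`: the superstring as a permutation with a last string.
-/

namespace Vale.Agent.P333.X.XT607

open Vale.Agent.P333 Vale.Agent.P333.U Vale.Agent.P333.E Vale.Agent.P333.G Vale.Agent.Lib.PolyTime

theorem exists_occ {T s : List ℕ} (h : s <:+: T) :
    ∃ a, a + s.length ≤ T.length ∧ OccAt (fun i => T.getD i 0) s a := by
  obtain ⟨u, v, huv⟩ := h
  refine ⟨u.length, ?_, fun i hi => ?_⟩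
  · rw [← huv]; simp only [List.length_append]; omega
  · show s[i] = T.getD (u.length + i) 0
    conv_rhs => rw [← huv]
    rw [List.append_assoc, List.getD_append_right _ _ _ _ (by omega), Nat.add_sub_cancel_left,
      List.getD_append _ _ _ _ hi, List.getD_eq_getElem _ _ hi]

theorem sfree_nodup {S : List (List ℕ)} (hS : Sfree S) : S.Nodup :=
  hS.2.imp fun {a b} h e => h.1 (by rw [e])

theorem sfree_or {S : List (List ℕ)} (hS : Sfree S) {s t : List ℕ} (hs : s ∈ S) (ht : t ∈ S)
    (h : s ≠ t) : ¬ s <:+: t ∧ ¬ t <:+: s := by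
  have : Std.Symm (fun s t : List ℕ => ¬ s <:+: t ∧ ¬ t <:+: s) := ⟨fun a b hab =>
    ⟨hab.2, hab.1⟩⟩
  exact hS.2.forall hs ht h

theorem pos_ne {Z : ℕ → ℕ} {s t : List ℕ} {a : ℕ} (hs : OccAt Z s a) (ht : OccAt Z t a)
    (h : ¬ s <:+: t ∧ ¬ t <:+: s) : False := by
  rcases Nat.le_total s.length t.length with h2 | h2
  · exact h.1 (hs.prefix_of_le ht h2).isInfix
  · exact h.2 (ht.prefix_of_le hs h2).isInfix

/-- The order by positions. -/
theorem key (S : List (List ℕ)) (d : List ℕ → List ℕ → ℕ) (n : ℕ)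
    (pos : List ℕ → ℕ) (hn : ∀ s ∈ S, pos s + s.length ≤ n)
    (hne : ∀ s ∈ S, ∀ t ∈ S, s ≠ t → pos s ≠ pos t)
    (hc : ∀ s ∈ S, ∀ t ∈ S, pos s < pos t → s.length - d s t ≤ pos t - pos s)
    (m : ℕ) (s : Fin m → List ℕ) (hm : 0 < m) (hs : ∀ i, s i ∈ S) (hinj : Function.Injective s) :
    ∃ (σ : Equiv.Perm (Fin m)) (z : Fin m),
      (∑ i, if i = z then (s i).length else ((s i).length - d (s i) (s (σ i)))) ≤ n ∧
      ∀ D : List (List ℕ), (∃ i, s i ∈ D) → ∃ i, s i ∈ D ∧ (i = z ∨ s (σ i) ∉ D) := by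
  rcases m with _ | m
  · omega
  set f : Fin (m + 1) → ℕ := fun i => pos (s i) with hf
  set τ := Tuple.sort f with hτ
  have hmono : Monotone (f ∘ τ) := Tuple.monotone_sort f
  have hfinj : Function.Injective f := by
    intro i j hij
    by_contra h
    exact hne (s i) (hs i) (s j) (hs j) (fun h' => h (hinj h')) hij
  have hsm : StrictMono (f ∘ τ) := hmono.strictMono_of_injective (hfinj.comp τ.injective)
  have hrot : ∀ k : Fin m, finRotate (m + 1) k.castSucc = k.succ := by
    intro k
    rw [finRotate_succ_apply]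
    exact Fin.coeSucc_eq_succ
  refine ⟨(τ.symm.trans (finRotate (m + 1))).trans τ, τ (Fin.last m), ?_, ?_⟩
  · rw [← Equiv.sum_comp τ]
    rw [Fin.sum_univ_castSucc]
    have e2 := sum_tele m (f ∘ τ) hmono
    have e3 : ∑ k : Fin m, (if τ k.castSucc = τ (Fin.last m) then (s (τ k.castSucc)).length else
        ((s (τ k.castSucc)).length -
        d (s (τ k.castSucc)) (s (((τ.symm.trans (finRotate (m + 1))).trans τ) (τ k.castSucc))))) ≤
        ∑ k : Fin m, ((f ∘ τ) k.succ - (f ∘ τ) k.castSucc) := by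
      refine Finset.sum_le_sum fun k _ => ?_
      have h1 : τ k.castSucc ≠ τ (Fin.last m) := by
        intro h
        exact absurd (τ.injective h) (Fin.castSucc_lt_last k).ne
      rw [if_neg h1]
      have h2 : ((τ.symm.trans (finRotate (m + 1))).trans τ) (τ k.castSucc) = τ k.succ := by
        simp [hrot]
      rw [h2]
      exact hc _ (hs _) _ (hs _) (hsm Fin.castSucc_lt_succ)
    have e4 := hn (s (τ (Fin.last m))) (hs _)
    have e6 : (f ∘ τ) (Fin.last m) = pos (s (τ (Fin.last m))) := rfl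
    rw [if_pos rfl]
    omega
  · intro D hD
    classical
    obtain ⟨i0, hi0⟩ := hD
    let A : Finset (Fin (m + 1)) := Finset.univ.filter (fun k => s (τ k) ∈ D)
    have hA : A.Nonempty := ⟨τ.symm i0, by simp [A, hi0]⟩
    refine ⟨τ (A.max' hA), ?_, ?_⟩
    · have := A.max'_mem hA
      simpa [A] using this
    · rcases Fin.eq_castSucc_or_eq_last (A.max' hA) with ⟨k, hk⟩ | hk
      · right
        intro hcon
        rw [hk] at hcon
        have h2 : ((τ.symm.trans (finRotate (m + 1))).trans τ) (τ k.castSucc) = τ k.succ := by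
          simp [hrot]
        rw [h2] at hcon
        have h3 : k.succ ∈ A := by simp [A, hcon]
        have h4 := A.le_max' _ h3
        rw [hk] at h4
        exact absurd h4 (not_le.2 Fin.castSucc_lt_succ)
      · left
        rw [hk]

end Vale.Agent.P333.X.XT607

namespace Vale.Agent.P333.X

open Vale.Agent.P333 Vale.Agent.P333.U Vale.Agent.P333.E Vale.Agent.P333.G Vale.Agent.Lib.PolyTime

theorem xT : XT := by
  intro S T hS hne hT
  have hocc : ∀ s : List ℕ, ∃ a, s ∈ S →
      (a + s.length ≤ T.length ∧ OccAt (fun i => T.getD i 0) s a) := by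
    intro s
    by_cases h : s ∈ S
    · obtain ⟨a, h1, h2⟩ := XT607.exists_occ (hT s h)
      exact ⟨a, fun _ => ⟨h1, h2⟩⟩
    · exact ⟨0, fun h' => absurd h' h⟩
  choose pos hpos using hocc
  have hnd := XT607.sfree_nodup hS
  obtain ⟨σ, z, h1, h2⟩ := XT607.key S ov T.length pos (fun s hs => (hpos s hs).1)
    (by
      intro s hs t ht hst he
      refine XT607.pos_ne (hpos s hs).2 ?_ (XT607.sfree_or hS hs ht hst)
      rw [he]
      exact (hpos t ht).2)
    (by
      intro s hs t ht hst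
      refine (hpos s hs).2.gap_le (hpos t ht).2 hst ?_
      by_cases h : s = t
      · exact Or.inl h
      · exact Or.inr (XT607.sfree_or hS hs ht h).2)
    S.length S.get (List.length_pos_of_ne_nil hne) (fun i => List.get_mem _ _)
    (List.nodup_iff_injective_get.1 hnd)
  refine ⟨σ, z, h1, fun D hD => h2 D ?_⟩
  obtain ⟨s, hs1, hs2⟩ := hD
  obtain ⟨i, hi⟩ := List.mem_iff_get.1 hs2
  exact ⟨i, by rw [hi]; exact hs1⟩

end Vale.Agent.P333.X
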