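import Vale.Agent.P333.X.Main
import Vale.Agent.P333.X.Loc
import Vale.Agent.P333.X.Opt
import Vale.Agent.P333.X.T
import Vale.Agent.P333.X.Rep
import Vale.Agent.P333.X.Sum
import Vale.Agent.P333.X.Acc
import Vale.Agent.P333.X.Closed
import Vale.Agent.P333.X.Listed
import Vale.Agent.P333.X.Run
import Vale.Agent.P333.X.Fit
import Vale.Agent.P333.X.PT

set_option linter.all false

/-!
P333: approximation ratio `13/6 + ε`.
-/

namespace Vale.Agent.P333.X

open Vale.Agent.P333

/-- For every `r > 13/6` there is a polynomial time `r`-approximation. -/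
theorem hasApprox_main (r : ℝ) (hr : 13 / 6 < r) : HasApprox r :=
  hasApprox_of_parts (xSum xRep) xClosed (xListed (xSum xRep)) (xOpt_of xLoc xT xRep) xRun
    (xCont_of xRep) (xFit_of xRep) (xAcc xRep xClosed (xListed (xSum xRep))) xPT r hr

end Vale.Agent.P333.X
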