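import Mathlib
import Vale.Agent.P333.X.Defs
import Vale.Agent.P333.G.Main
import Vale.Agent.P333.G.StageW

set_option linter.all false

/-!
P333, ratio `13/6 + ε`: assembly.
-/

namespace Vale.Agent.P333.X

open Vale.Agent.P333 Vale.Agent.P333.U Vale.Agent.P333.E Vale.Agent.P333.G Vale.Agent.Lib.PolyTime

theorem sum_rep_le {Q : ℕ} {S : List (List ℕ)} {U : List Ent} (h : ∀ e ∈ U, EOk Q S e) :
    (U.map (fun e => (repD e.1 e.2.1).length)).sum ≤ (2 * Q + 1) * pAll U := by
  induction U with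
  | nil => simp [pAll]
  | cons e U ih =>
    have h1 := ih fun e' he' => h e' (List.mem_cons_of_mem _ he')
    have h2 := (h e List.mem_cons_self).large
    have e1 : pAll (e :: U) = pD e.1 e.2.1 + pAll U := by simp [pAll]
    rw [List.map_cons, List.sum_cons, e1, Nat.mul_add]
    have h3 : (repD e.1 e.2.1).length ≤ 2 * e.2.1 + pD e.1 e.2.1 := by
      unfold pD
      omega
    have h4 : 2 * e.2.1 + pD e.1 e.2.1 ≤ (2 * Q + 1) * pD e.1 e.2.1 := by nlinarith
    omega

theorem ratio_of (xSum : XSum) (xClosed : XClosed) (xListed : XListed) (xOpt : XOpt) (xRun : XRun)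
    (xCont : XCont) (xFit : XFit) (xAcc : XAcc) (xPT : XPT) (M Q : ℕ) (hM : 0 < M) (hQ : 0 < Q) :
    HasApprox (((52 * M * Q + 64 * Q * (2 * Q + 1) + 9 * M + 16 * (2 * Q + 1) : ℕ) : ℝ) /
      ((24 * M * Q : ℕ) : ℝ)) := by
  obtain ⟨asg, ha1, ha2⟩ := assignAlg
  obtain ⟨atsp, ht1, ht2⟩ := atspAlg_2_3
  obtain ⟨run, hr1, hr2⟩ := xRun asg ha1 ha2 (2 * M) Q
  refine hasApprox_of_ratio (by positivity) (algX run atsp) (xPT run atsp hr1 ht1) fun S hS => ?_
  obtain ⟨hI, hT⟩ := hr2 S hS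
  set s := run S with hs
  obtain ⟨s1, s2⟩ := blkStageW atsp ht2 (repsX S s)
  have hout : algX run atsp S = stageW atsp (repsX S s) := rfl
  rw [hout]
  constructor
  · intro t ht
    obtain ⟨R, hR, htR⟩ := xCont Q S s hS hI t ht
    exact htR.trans (s1 R hR)
  · intro T hTS
    obtain ⟨U, hU1, hU2⟩ := xFit Q S s T hS hI hTS
    have h2 := s2 U hU2
    have h3 := xAcc asg (2 * M) Q S s hS hI hT
    have h4 := xOpt asg ha2 M Q S s T hM hS hI hT hTS
    have h5 := xSum Q S s T hS hI hTS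
    have h6 := sum_rep_le hI.ent
    set n := T.length
    set R := ((repsX S s).map List.length).sum
    set c := cC s
    set pe := penU s.1
    set P := pAll s.1
    set Z := (s.1.map (fun e => (repD e.1 e.2.1).length)).sum
    set l := (stageW atsp (repsX S s)).length
    -- 3 l ≤ R + 2 (n + c)
    have h7 : 3 * l ≤ R + 2 * (n + c) := by omega
    -- 3 Q l ≤ Q (4 c + pe + 2 n) + c
    have h8 : 3 * (Q * l) ≤ Q * (4 * c + pe + 2 * n) + c := by
      have := Nat.mul_le_mul_left Q h7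
      nlinarith
    have h9 : Z ≤ (2 * Q + 1) * n := h6.trans (Nat.mul_le_mul_left _ h5)
    have h10 : M * (8 * c + 2 * pe) ≤ 9 * (M * n) + 16 * ((2 * Q + 1) * n) := by
      have := Nat.mul_le_mul_left M h5
      nlinarith
    have h11 : 8 * (M * c) ≤ 9 * (M * n) + 16 * ((2 * Q + 1) * n) := by nlinarith
    have h12 := Nat.mul_le_mul_left (8 * M) h8
    have h13 := Nat.mul_le_mul_left (4 * Q) h10
    nlinarith

theorem hasApprox_of_parts (xSum : XSum) (xClosed : XClosed) (xListed : XListed) (xOpt : XOpt)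
    (xRun : XRun) (xCont : XCont) (xFit : XFit) (xAcc : XAcc) (xPT : XPT) (r : ℝ)
    (hr : 13 / 6 < r) : HasApprox r := by
  have hr' : 0 < r - 13 / 6 := by linarith
  obtain ⟨Q, hQ⟩ := exists_nat_gt (2 / (r - 13 / 6))
  have hQ0 : 0 < Q := by
    rcases Nat.eq_zero_or_pos Q with h | h
    · subst h
      have : 0 < 2 / (r - 13 / 6) := by positivity
      simp at hQ
      linarith
    · exact h
  refine hasApprox_mono ?_ (ratio_of xSum xClosed xListed xOpt xRun xCont xFit xAcc xPT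
    (24 * Q * Q) Q (by positivity) hQ0)
  have hQr : (1 : ℝ) ≤ Q := by exact_mod_cast hQ0
  rw [div_lt_iff₀ hr'] at hQ
  push_cast
  rw [div_le_iff₀ (by positivity)]
  have h1 : 2 * (Q : ℝ) ^ 2 ≤ Q ^ 3 * (r - 13 / 6) := by nlinarith [sq_nonneg (Q : ℝ)]
  nlinarith [sq_nonneg (Q : ℝ), mul_pos (show (0 : ℝ) < Q by linarith) hr']

end Vale.Agent.P333.X
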