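import Vale.Agent.P333.X.Defs
import Vale.Agent.P333.G.PTG

set_option linter.all false

/-!
P333, ratio `13/6 + ε`: the functions of the states are computable in polynomial time.
-/

namespace Vale.Agent.P333.X

open Vale.Agent.P333 Vale.Agent.P333.U Vale.Agent.P333.E Vale.Agent.P333.G Vale.Agent.Lib.PolyTime

variable {A : Set Word} {α β γ : Type*} [Enc α] [Enc β] [Enc γ]

theorem PT_rotate {l : α → List β} {n : α → ℕ} (hl : PT A l) (hn : PT A n) :
    PT A (fun a => (l a).rotate (n a)) := by
  have h : PT A (fun a => n a % (l a).length) := PT.mod hn hl.length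
  exact (PT.append (PT.drop hl h) (PT.take hl h)).congr fun a =>
    (List.rotate_eq_drop_append_take_mod).symm

/-! ### Declared overlaps, generic -/

/-- A family of declared overlap functions is computable. -/
def PTD (A : Set Word) {α : Type*} [Enc α] (d : α → List ℕ → List ℕ → ℕ) : Prop :=
  PT A (fun p : α × List ℕ × List ℕ => d p.1 p.2.1 p.2.2)

theorem PTD.apply {d : α → List ℕ → List ℕ → ℕ} (hd : PTD A d) {f : γ → α} {s t : γ → List ℕ}
    (hf : PT A f) (hs : PT A s) (ht : PT A t) : PT A (fun c => d (f c) (s c) (t c)) :=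
  PT.comp hd (hf.pair (hs.pair ht))

theorem PTD.comp {d : α → List ℕ → List ℕ → ℕ} (hd : PTD A d) {f : γ → α} (hf : PT A f) :
    PTD A (fun c => d (f c)) :=
  hd.apply (hf.comp PT.fst') PT.snd'.fst PT.snd'.snd

theorem PT_dMatD {d : α → List ℕ → List ℕ → ℕ} (hd : PTD A d) {S : α → List (List ℕ)}
    (hS : PT A S) : PT A (fun a => dMat (d a) (S a)) := by
  unfold dMat
  refine PT.map (f := fun a s => (S a).map (fun t => d a s t)) hS ?_
  refine PT.map (f := fun (p : α × List ℕ) t => d p.1 p.2 t) (hS.comp PT.fst') ?_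
  exact hd.apply (PT.fst'.comp PT.fst') (PT.snd'.comp PT.fst') PT.snd'

theorem PT_dCovD {d : α → List ℕ → List ℕ → ℕ} (hd : PTD A d) {S : α → List (List ℕ)}
    {P : α → List ℕ} (hS : PT A S) (hP : PT A P) : PT A (fun a => dCov (d a) (S a) (P a)) := by
  unfold dCov
  refine PT.map (f := fun a c => c.map fun i => (S a).getD i []) (PT_joinFold hS.length
    (PBd.length hS) (PT_arcsS (PT_dMatD hd hS) hP hS.length (PBd.length hS))) ?_
  exact PT.map (f := fun (q : α × List ℕ) i => (S q.1).getD i []) PT.snd'
    (PT.getD ((hS.comp PT.fst').comp PT.fst') PT.snd' (PT.const []))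

theorem PT_dOptD {asg : List Unit × List (List ℕ) → List ℕ} (ha : PT A asg)
    {d : α → List ℕ → List ℕ → ℕ} (hd : PTD A d) {S : α → List (List ℕ)} (hS : PT A S) :
    PT A (fun a => dOpt asg (d a) (S a)) := by
  unfold dOpt
  refine PT_dCovD hd hS (ha.comp (PT.pair ?_ (PT_dMatD hd hS)))
  exact PT.replicate (PT.length (PT.flatten hS)) (PBd.length (PT.flatten hS)) (PT.const ())

theorem PT_dWD {d : α → List ℕ → List ℕ → ℕ} (hd : PTD A d) {c : α → List (List ℕ)}
    (hc : PT A c) : PT A (fun a => dW (d a) (c a)) := by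
  unfold dW
  refine PT.sum (PT.map (f := fun a (e : List ℕ × List ℕ) =>
    e.1.length - d a e.1 e.2) (PT_cprs hc) ?_)
  exact PT.sub PT.snd'.fst.length (hd.apply PT.fst' PT.snd'.fst PT.snd'.snd)

theorem PT_dOD {d : α → List ℕ → List ℕ → ℕ} (hd : PTD A d) {c : α → List (List ℕ)}
    (hc : PT A c) : PT A (fun a => dO (d a) (c a)) :=
  hd.apply PT.id (PT_getLastD hc (PT.const [])) (PT.headD hc (PT.const []))

theorem PT_minFold {l : α → List ℕ} {i : α → ℕ} (hl : PT A l) (hi : PT A i) :
    PT A (fun a => (l a).foldl min (i a)) := by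
  have key : ∀ (m : List ℕ) (u : ℕ), m.foldl min u ≤ u := by
    intro m
    induction m with
    | nil => intro u; exact le_refl _
    | cons v m ih =>
      intro u
      rw [List.foldl_cons]
      exact (ih _).trans (min_le_left _ _)
  refine PT.foldl (f := fun _ u v => min u v) hl hi (PT.min PT.snd'.fst PT.snd'.snd)
    (b := fun a => esize (i a)) hi.pbd fun a j => ?_
  exact esize_nat_mono (key _ _)

theorem PT_oMin {d : α → List ℕ → List ℕ → ℕ} (hd : PTD A d) {c : α → List (List ℕ)}
    (hc : PT A c) : PT A (fun a => oMin (d a) (c a)) := by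
  unfold oMin
  refine PT_minFold (PT.map (f := fun a (e : List ℕ × List ℕ) => d a e.1 e.2) (PT_cprs hc) ?_)
    (PT_dOD hd hc)
  exact hd.apply PT.fst' PT.snd'.fst PT.snd'.snd

theorem PT_bigC {d : α → List ℕ → List ℕ → ℕ} (hd : PTD A d) {c : α → List (List ℕ)}
    (hc : PT A c) : PT A (fun a => bigC (d a) (c a)) :=
  PT.lt (PT_dWD hd hc) (PT_oMin hd hc)

/-! ### The states -/

theorem PTD_dU {U : α → List Ent} (hU : PT A U) : PTD A (fun a => dU (U a)) := by
  unfold PTD dU
  refine PT.ite (p := fun p : α × List ℕ × List ℕ =>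
    ((U p.1).any (fun e => decide (e.2.2 = p.2.1) && decide (p.2.2 ∈ e.1))) = true) ?_
    (PT.const 0) (PT_ov PT.snd'.fst PT.snd'.snd)
  refine PT.congr (f := fun p : α × List ℕ × List ℕ =>
    ((U p.1).any (fun e => decide (e.2.2 = p.2.1) && decide (p.2.2 ∈ e.1)))) ?_
    fun p => Bool.decide_eq_true.symm
  refine PT.any (f := fun (p : α × List ℕ × List ℕ) (e : Ent) =>
    decide (e.2.2 = p.2.1) && decide (p.2.2 ∈ e.1)) (hU.comp PT.fst') ?_
  exact PT.and (PT_eqStr PT.snd'.snd.snd PT.fst'.snd.fst) (PT_memStr PT.snd'.fst PT.fst'.snd.snd)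

theorem PT_perC {c : α → List (List ℕ)} (hc : PT A c) : PT A (fun a => perC (c a)) := by
  unfold perC
  have hw : PT A (fun a => (mergeL (c a)).take (cycW (c a))) := PT.take (PT_mergeL hc) (PT_cycW hc)
  refine PT.add (PT.optGetD (PT.find? (f := fun a q =>
    decide (((mergeL (c a)).take (cycW (c a))).rotate (q + 1) =
      (mergeL (c a)).take (cycW (c a)))) (PT.range (PT_cycW hc) ((PBd.length
        (PT_mergeL hc)).mono fun a => cycW_le_length _)) ?_) (PT.const 0)) (PT.const 1)
  exact PT_eqStr (PT_rotate (hw.comp PT.fst') (PT.add PT.snd' (PT.const 1))) (hw.comp PT.fst')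

theorem find?_range_add {l : ℕ → List ℕ} {P : List ℕ → Bool} {N : ℕ}
    (h : ∀ i, N ≤ i → l i = l N) (w : List ℕ) (hw : w = l N) (k : ℕ) :
    (((List.range (N + 1 + k)).map l).find? P).getD w =
      (((List.range (N + 1)).map l).find? P).getD w := by
  induction k with
  | zero => rfl
  | succ k ih =>
    rw [← ih, ← Nat.add_assoc, List.range_succ, List.map_append, List.find?_append]
    cases hf : List.find? P (List.map l (List.range (N + 1 + k))) with
    | some v => rfl
    | none =>
      rw [List.map_singleton, h (N + 1 + k) (by omega), ← hw, Option.none_or,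
        List.find?_singleton]
      split <;> rfl

theorem prW_min (D : List (List ℕ)) (k : ℕ) (x : List ℕ) :
    prW D k x = prW D (min k x.length) x := by
  rcases le_total k x.length with h | h
  · rw [min_eq_left h]
  · rw [min_eq_right h]
    obtain ⟨j, rfl⟩ := Nat.exists_eq_add_of_le h
    unfold prW
    rw [List.take_of_length_le (le_refl _), List.take_of_length_le (by omega : x.length ≤ x.length + j),
      show x.length + j + x.length + 1 = (x.length + x.length) + 1 + j by omega]
    refine find?_range_add (l := fun l => (x ++ x).take l) (fun i hi => ?_) _ ?_ j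
    · simp only [List.take_of_length_le (show (x ++ x).length ≤ i by
        simp only [List.length_append]; omega), List.take_of_length_le
          (show (x ++ x).length ≤ x.length + x.length by simp)]
    · simp only [List.take_of_length_le
          (show (x ++ x).length ≤ x.length + x.length by simp)]

theorem PT_prW' {D : α → List (List ℕ)} {k : α → ℕ} {x : α → List ℕ} (hD : PT A D) (hk : PT A k)
    (hx : PT A x) : PT A (fun a => prW (D a) (k a) (x a)) := by
  refine (PT_prW (k := fun a => min (k a) (x a).length) hD (PT.min hk hx.length)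
    ((PBd.length hx).mono fun a => min_le_right _ _) hx).congr fun a => (prW_min _ _ _).symm

theorem PT_repD {D : α → List (List ℕ)} {p : α → ℕ} (hD : PT A D) (hp : PT A p) :
    PT A (fun a => repD (D a) (p a)) := by
  unfold repD
  refine PT_shortest (PT.map (f := fun a x => prW (D a) (p a) x) hD ?_)
    (PT_prW' hD hp (PT.headD hD (PT.const [])))
  exact PT_prW' (hD.comp PT.fst') (hp.comp PT.fst') PT.snd'

theorem PT_pD {D : α → List (List ℕ)} {p : α → ℕ} (hD : PT A D) (hp : PT A p) :
    PT A (fun a => pD (D a) (p a)) :=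
  PT.sub (PT.add (PT_repD hD hp).length (PT.const 1)) (PT.mul (PT.const 2) hp)

theorem PT_penU {U : α → List Ent} (hU : PT A U) : PT A (fun a => penU (U a)) := by
  unfold penU
  refine PT.sum (PT.map (f := fun _ (e : Ent) =>
    if decide (e.2.2 = []) then pD e.1 e.2.1 else 0) hU ?_)
  refine PT.ite (p := fun p : α × Ent => decide (p.2.2.2 = []) = true) ?_
    (PT_pD PT.snd'.fst PT.snd'.snd.fst) (PT.const 0)
  exact (PT_eqStr (f := fun p : α × Ent => p.2.2.2) (g := fun _ => []) PT.snd'.snd.snd
    (PT.const [])).congr fun p => by simp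

theorem PT_cC {s : α → St} (hs : PT A s) : PT A (fun a => cC (s a)) := by
  unfold cC
  refine PT.sum (PT.map (f := fun a c => dW (dU (s a).1) c) hs.snd ?_)
  exact PT_dWD ((PTD_dU hs.fst).comp PT.fst') PT.snd'

theorem PT_phi {s : α → St} (hs : PT A s) : PT A (fun a => phi (s a)) :=
  PT.add (PT.mul (PT.const 8) (PT_cC hs)) (PT_penU hs.fst)

theorem PT_meas {S : α → List (List ℕ)} {s : α → St} (hS : PT A S) (hs : PT A s) :
    PT A (fun a => meas (S a) (s a)) := by
  unfold meas
  have h1 : PT A (fun a => (S a).flatten.length) := PT.length (PT.flatten hS)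
  have h2 : PT A (fun a => (S a).length + 1) := PT.add hS.length (PT.const 1)
  exact PT.add (PT.add (PT.mul (PT.sub h1 hs.fst.length) (PT.mul (PT.add h1 (PT.const 1)) h2))
    (PT.mul (PT_phi hs) h2)) hs.snd.length

end Vale.Agent.P333.X
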