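import Mathlib
import Vale.Agent.P333.X.Defs
import Vale.Agent.P333.G.LS
import Vale.Agent.P333.G.Cov
import Vale.Agent.P333.G.Fit

set_option linter.all false

/-!
P333, ratio `13/6 + ε`: the run of the moves, invariants and termination.
-/

namespace Vale.Agent.P333.X.RunX

open Vale.Agent.P333 Vale.Agent.P333.U Vale.Agent.P333.E Vale.Agent.P333.G Vale.Agent.P333.X
open Vale.Agent.Lib.PolyTime

/-- One step. -/
def stepX (asg : List Unit × List (List ℕ) → List ℕ) (K Q : ℕ) (S : List (List ℕ)) (s : St) : St :=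
  ((cands asg K Q S s).find? (fun s' => decide (meas S s' < meas S s))).getD s

/-- The initial state. -/
def s0 (S : List (List ℕ)) : St := ([], S.map (fun x => [x]))

/-- Number of steps. -/
def bdX (S : List (List ℕ)) : ℕ :=
  S.flatten.length * ((S.flatten.length + 1) * (S.length + 1)) +
    8 * S.flatten.length * (S.length + 1) + S.length + 1

/-- Nothing is done if a string is repeated. -/
def fx (S : List (List ℕ)) : List (List ℕ) := if S.Pairwise (fun s t => s ≠ t) then S else []

/-- The run. -/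
def runX (asg : List Unit × List (List ℕ) → List ℕ) (K Q : ℕ) (S : List (List ℕ)) : St :=
  (List.replicate (bdX (fx S)) ()).foldl (fun s _ => stepX asg K Q (fx S) s) (s0 (fx S))

theorem fx_nodup (S : List (List ℕ)) : (fx S).Nodup := by
  unfold fx
  split_ifs with h
  · exact h
  · exact List.nodup_nil

theorem fx_eq {S : List (List ℕ)} (h : S.Nodup) : fx S = S := by
  unfold fx
  rw [if_pos]
  exact h

/-! ### Declared overlaps -/

theorem dU_le_ov (U : List Ent) (s t : List ℕ) : dU U s t ≤ ov s t := by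
  unfold dU
  split_ifs
  · exact Nat.zero_le _
  · exact le_rfl

theorem dU_le_len (U : List Ent) (s t : List ℕ) : dU U s t ≤ s.length :=
  (dU_le_ov U s t).trans (G.ov_le_left s t)

theorem foldl_min_le (l : List ℕ) (i : ℕ) : l.foldl min i ≤ i ∧ ∀ x ∈ l, l.foldl min i ≤ x := by
  induction l generalizing i with
  | nil => exact ⟨le_rfl, by simp⟩
  | cons y l ih =>
    rw [List.foldl_cons]
    obtain ⟨h1, h2⟩ := ih (min i y)
    refine ⟨h1.trans (min_le_left _ _), fun x hx => ?_⟩
    rcases List.mem_cons.1 hx with rfl | hx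
    · exact h1.trans (min_le_right _ _)
    · exact h2 x hx

theorem oMin_le (d : List ℕ → List ℕ → ℕ) (c : List (List ℕ)) (a : List ℕ × List ℕ)
    (ha : a ∈ cprs [] c) : oMin d c ≤ d a.1 a.2 :=
  (foldl_min_le _ _).2 _ (List.mem_map.2 ⟨a, ha, rfl⟩)

theorem big_arc {U : List Ent} {c : List (List ℕ)} (h : bigC (dU U) c = true) :
    ∀ a ∈ cprs [] c, cycW c < ov a.1 a.2 := by
  intro a ha
  unfold bigC at h
  rw [decide_eq_true_eq] at h
  have h1 := cycW_le_dW (dU_le_ov U) c
  have h2 := oMin_le (dU U) c a ha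
  have h3 := dU_le_ov U a.1 a.2
  omega

/-! ### Invariants of the entries -/

theorem EOk.set {Q : ℕ} {S : List (List ℕ)} {e : Ent} (he : EOk Q S e) {g : List ℕ}
    (hg : g = [] ∨ g ∈ e.1) : EOk Q S (e.1, e.2.1, g) := ⟨he.wit, hg, he.large⟩

theorem app_ok {Q : ℕ} {S : List (List ℕ)} {U : List Ent} (q : List ℕ × List ℕ)
    (h : ∀ e ∈ U, EOk Q S e) : ∀ e ∈ app q U, EOk Q S e := by
  intro e he
  unfold app at he
  obtain ⟨e0, h1, rfl⟩ := List.mem_map.1 he
  split_ifs with h2 h3
  · refine EOk.set (h e0 h1) (Or.inr ?_)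
    simp only [Bool.and_eq_true, decide_eq_true_eq] at h2
    exact h2.1
  · exact EOk.set (h e0 h1) (Or.inl rfl)
  · exact h e0 h1

theorem app_keys (q : List ℕ × List ℕ) (U : List Ent) :
    (app q U).map (fun e => (e.1, e.2.1)) = U.map (fun e => (e.1, e.2.1)) := by
  unfold app
  rw [List.map_map]
  refine List.map_congr_left fun e _ => ?_
  simp only [Function.comp_apply]
  split_ifs <;> rfl

theorem nbs_ok {Q : ℕ} {S : List (List ℕ)} {U : List Ent} (h : ∀ e ∈ U, EOk Q S e) (k : ℕ) :
    ∀ V ∈ nbs S k U, (∀ e ∈ V, EOk Q S e) ∧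
      V.map (fun e => (e.1, e.2.1)) = U.map (fun e => (e.1, e.2.1)) := by
  induction k with
  | zero =>
    intro V hV
    rw [nbs, List.mem_singleton] at hV
    subst hV
    exact ⟨h, rfl⟩
  | succ k ih =>
    intro V hV
    rw [nbs, List.mem_flatMap] at hV
    obtain ⟨W, hW, hV⟩ := hV
    obtain ⟨h1, h2⟩ := ih W hW
    rcases List.mem_cons.1 hV with rfl | hV
    · exact ⟨h1, h2⟩
    · rw [List.mem_flatMap] at hV
      obtain ⟨x, _, hV⟩ := hV
      obtain ⟨y, _, rfl⟩ := List.mem_map.1 hV
      exact ⟨app_ok _ h1, by rw [app_keys, h2]⟩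

theorem regate_eq (m : List (List ℕ)) (e : Ent) :
    regate m e = e ∨ ∃ g ∈ e.1, regate m e = (e.1, e.2.1, g) := by
  unfold regate
  split_ifs with h
  · rcases h1 : (cprs [] m).find? (fun a => decide (a.1 ∈ e.1) && !decide (a.2 ∈ e.1)) with _ | a
    · left; rw [h1]; rfl
    · right
      have h2 := List.find?_some h1
      simp only [Bool.and_eq_true, decide_eq_true_eq] at h2
      exact ⟨a.1, h2.1, by rw [h1]; rfl⟩
  · left; rfl

theorem regate_ok {Q : ℕ} {S : List (List ℕ)} {e : Ent} (m : List (List ℕ)) (h : EOk Q S e) :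
    EOk Q S (regate m e) := by
  rcases regate_eq m e with h1 | ⟨g, h1, h2⟩
  · rw [h1]; exact h
  · rw [h2]; exact EOk.set h (Or.inr h1)

theorem regate_key (m : List (List ℕ)) (e : Ent) :
    ((regate m e).1, (regate m e).2.1) = (e.1, e.2.1) := by
  rcases regate_eq m e with h1 | ⟨g, h1, h2⟩
  · rw [h1]
  · rw [h2]

/-! ### Invariants of a step -/

theorem inv_s0 (Q : ℕ) (S : List (List ℕ)) : Inv Q S (s0 S) := by
  refine ⟨?_, ?_, fun e he => absurd he (by simp [s0]), by simp [s0]⟩
  · have : (s0 S).2.flatten = S := by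
      unfold s0
      induction S with
      | nil => rfl
      | cons x S ih => simpa using ih
    rw [this]
  · intro c hc
    obtain ⟨x, _, rfl⟩ := List.mem_map.1 hc
    exact List.cons_ne_nil _ _

theorem nodup_circle {Q : ℕ} {S : List (List ℕ)} {s : St} (hS : S.Nodup) (h : Inv Q S s)
    {c : List (List ℕ)} (hc : c ∈ s.2) : c.Nodup ∧ ∀ x ∈ c, x ∈ S := by
  have h1 : s.2.flatten.Nodup := h.perm.nodup_iff.2 hS
  exact ⟨(List.nodup_flatten.1 h1).1 c hc, fun x hx => h.perm.mem_iff.1
    (List.mem_flatten.2 ⟨c, hc, hx⟩)⟩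

theorem bigOk {Q : ℕ} {S : List (List ℕ)} {s : St} (hS : S.Nodup) (h : Inv Q S s)
    {c : List (List ℕ)} (hc : c ∈ s.2) (hb : bigC (dU s.1) c = true) : BigOk S c :=
  ⟨(nodup_circle hS h hc).1, h.ne c hc, (nodup_circle hS h hc).2, big_arc hb⟩

theorem inv_cand1 {asg : List Unit × List (List ℕ) → List ℕ} (ha : AsgOk asg) {K Q : ℕ}
    {S : List (List ℕ)} {s : St} (hS : S.Nodup) (h : Inv Q S s) :
    ∀ s' ∈ cand1 asg K S s, Inv Q S s' := by
  intro s' hs'
  obtain ⟨V, hV, rfl⟩ := List.mem_map.1 hs'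
  obtain ⟨h1, h2⟩ := nbs_ok h.ent K V hV
  obtain ⟨h3, _, _⟩ := blkCov asg ha (dU V) S hS (fun x _ y _ => dU_le_len V x y)
  exact ⟨h3.perm, h3.ne, h1, by rw [h2]; exact h.nodup⟩

theorem mem_cand2 {s s' : St} (h : s' ∈ cand2 s) : ∃ c ∈ s.2, ∃ c2 ∈ s.2, c ≠ c2 ∧
    ∃ i j, s' = mrg s c c2 i j := by
  unfold cand2 at h
  obtain ⟨c, hc, h⟩ := List.mem_flatMap.1 h
  obtain ⟨c2, hc2, h⟩ := List.mem_flatMap.1 h
  split_ifs at h with h1
  · exact absurd h (by simp)
  · rw [decide_eq_true_eq] at h1
    obtain ⟨i, _, h⟩ := List.mem_flatMap.1 h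
    obtain ⟨j, _, rfl⟩ := List.mem_map.1 h
    exact ⟨c, hc, c2, hc2, h1, i, j, rfl⟩

theorem perm_mrg {L : List (List (List ℕ))} {c c2 : List (List ℕ)} (hc : c ∈ L) (hc2 : c2 ∈ L)
    (hne : c ≠ c2) : L.Perm (c :: c2 :: (L.erase c).erase c2) :=
  (List.perm_cons_erase hc).trans (List.Perm.cons _ (List.perm_cons_erase
    ((List.mem_erase_of_ne (Ne.symm hne)).2 hc2)))

theorem inv_cand2 {Q : ℕ} {S : List (List ℕ)} {s : St} (h : Inv Q S s) :
    ∀ s' ∈ cand2 s, Inv Q S s' := by
  intro s' hs'
  obtain ⟨c, hc, c2, hc2, hne, i, j, rfl⟩ := mem_cand2 hs'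
  have hp := perm_mrg hc hc2 hne
  refine ⟨?_, ?_, ?_, ?_⟩
  · refine List.Perm.trans ?_ h.perm
    refine List.Perm.trans ?_ hp.flatten.symm
    show ((c.rotate i ++ c2.rotate j) :: (s.2.erase c).erase c2).flatten.Perm _
    rw [List.flatten_cons, List.flatten_cons, List.flatten_cons, ← List.append_assoc]
    exact List.Perm.append_right _ ((List.rotate_perm _ _).append (List.rotate_perm _ _))
  · intro b hb
    rcases List.mem_cons.1 hb with rfl | hb
    · intro h0
      rw [List.append_eq_nil_iff, List.rotate_eq_nil_iff] at h0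
      exact h.ne c hc h0.1
    · exact h.ne b (List.mem_of_mem_erase (List.mem_of_mem_erase hb))
  · intro e he
    obtain ⟨e0, he0, rfl⟩ := List.mem_map.1 he
    exact regate_ok _ (h.ent e0 he0)
  · show ((s.1.map (regate _)).map _).Nodup
    rw [List.map_map]
    have : s.1.map ((fun e : Ent => (e.1, e.2.1)) ∘ regate (c.rotate i ++ c2.rotate j)) =
        s.1.map (fun e : Ent => (e.1, e.2.1)) :=
      List.map_congr_left fun e _ => regate_key _ e
    rw [this]
    exact h.nodup

theorem mem_cand3 {Q : ℕ} {S : List (List ℕ)} {s s' : St} (h : s' ∈ cand3 Q S s) :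
    ∃ c ∈ s.2, bigC (dU s.1) c = true ∧ listed S s.1 c = false ∧
      perC c ≤ Q * pD (famD S c) (perC c) ∧ s' = (s.1 ++ [(famD S c, perC c, [])], s.2) := by
  unfold cand3 at h
  obtain ⟨c, hc, rfl⟩ := List.mem_map.1 h
  obtain ⟨hc, h1⟩ := List.mem_filter.1 hc
  simp only [Bool.and_eq_true, Bool.not_eq_true', decide_eq_true_eq] at h1
  exact ⟨c, hc, h1.1.1, h1.1.2, h1.2, rfl⟩

theorem inv_cand3 {Q : ℕ} {S : List (List ℕ)} {s : St} (hS : S.Nodup) (h : Inv Q S s) :
    ∀ s' ∈ cand3 Q S s, Inv Q S s' := by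
  intro s' hs'
  obtain ⟨c, hc, h1, h2, h3, rfl⟩ := mem_cand3 hs'
  refine ⟨h.perm, h.ne, ?_, ?_⟩
  · intro e he
    rcases List.mem_append.1 he with he | he
    · exact h.ent e he
    · rw [List.mem_singleton] at he
      subst he
      exact ⟨⟨c, bigOk hS h hc h1, rfl, rfl⟩, Or.inl rfl, h3⟩
  · show ((s.1 ++ [((famD S c, perC c, []) : Ent)]).map (fun e : Ent => (e.1, e.2.1))).Nodup
    rw [List.map_append, List.nodup_append]
    refine ⟨h.nodup, by simp, ?_⟩
    intro a ha b hb hab
    simp only [List.map_cons, List.map_nil, List.mem_singleton] at hb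
    subst hb
    subst hab
    obtain ⟨e, he, h4⟩ := List.mem_map.1 ha
    unfold listed at h2
    rw [List.any_eq_false] at h2
    refine h2 e he ?_
    rw [Prod.mk.injEq] at h4
    simp [h4.1, h4.2]

theorem inv_cands {asg : List Unit × List (List ℕ) → List ℕ} (ha : AsgOk asg) {K Q : ℕ}
    {S : List (List ℕ)} {s : St} (hS : S.Nodup) (h : Inv Q S s) :
    ∀ s' ∈ cands asg K Q S s, Inv Q S s' := by
  intro s' hs'
  unfold cands at hs'
  rcases List.mem_append.1 hs' with hs' | hs'
  · rcases List.mem_append.1 hs' with hs' | hs'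
    · exact inv_cand1 ha hS h s' hs'
    · exact inv_cand2 h s' hs'
  · exact inv_cand3 hS h s' hs'

/-! ### The number of entries -/

theorem dU_append_nil (U : List Ent) (D : List (List ℕ)) (p : ℕ) :
    dU (U ++ [(D, p, [])]) = dU U := by
  funext s t
  by_cases hs : s = []
  · subst hs
    have h1 := dU_le_len (U ++ [(D, p, [])]) [] t
    have h2 := dU_le_len U [] t
    simp only [List.length_nil, Nat.le_zero] at h1 h2
    rw [h1, h2]
  · unfold dU
    have : (U ++ [((D, p, []) : Ent)]).any (fun e => decide (e.2.2 = s) && decide (t ∈ e.1)) =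
        U.any (fun e => decide (e.2.2 = s) && decide (t ∈ e.1)) := by
      rw [List.any_append]
      simp [Ne.symm hs]
    rw [this]

theorem len_cands {asg : List Unit × List (List ℕ) → List ℕ} {K Q : ℕ} {S : List (List ℕ)}
    {s : St} (hl : s.1.length ≤ S.flatten.length) :
    ∀ s' ∈ cands asg K Q S s, meas S s' < meas S s → s'.1.length ≤ S.flatten.length := by
  intro s' hs' hm
  unfold cands at hs'
  rcases List.mem_append.1 hs' with hs' | hs'
  · rcases List.mem_append.1 hs' with hs' | hs'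
    · obtain ⟨V, hV, rfl⟩ := List.mem_map.1 hs'
      have key : ∀ (k : ℕ) (V : List Ent), V ∈ nbs S k s.1 → V.length = s.1.length := by
        intro k
        induction k with
        | zero =>
          intro V hV
          rw [nbs, List.mem_singleton] at hV
          rw [hV]
        | succ k ih =>
          intro V hV
          rw [nbs, List.mem_flatMap] at hV
          obtain ⟨W, hW, hV⟩ := hV
          rcases List.mem_cons.1 hV with rfl | hV
          · exact ih _ hW
          · rw [List.mem_flatMap] at hV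
            obtain ⟨x, _, hV⟩ := hV
            obtain ⟨y, _, rfl⟩ := List.mem_map.1 hV
            rw [← ih W hW]
            unfold app
            rw [List.length_map]
      show V.length ≤ _
      rw [key K V hV]
      exact hl
    · obtain ⟨c, hc, c2, hc2, hne, i, j, rfl⟩ := mem_cand2 hs'
      show (s.1.map _).length ≤ _
      rw [List.length_map]
      exact hl
  · obtain ⟨c, hc, h1, h2, h3, rfl⟩ := mem_cand3 hs'
    by_contra hlt
    rw [not_le] at hlt
    have h4 : s.1.length = S.flatten.length := by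
      simp only [List.length_append, List.length_singleton] at hlt
      omega
    have h5 : phi s ≤ phi (s.1 ++ [(famD S c, perC c, [])], s.2) := by
      unfold phi cC penU
      simp only [dU_append_nil, List.map_append, List.sum_append]
      omega
    have h6 : phi s * (S.length + 1) ≤
        phi (s.1 ++ [(famD S c, perC c, [])], s.2) * (S.length + 1) := Nat.mul_le_mul_right _ h5
    unfold meas at hm
    simp only [List.length_append, List.length_singleton] at hm
    rw [h4] at hm
    have h7 : S.flatten.length - (S.flatten.length + 1) = 0 := by omega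
    rw [h7, Nat.sub_self] at hm
    omega

/-! ### Steps -/

/-- The invariant of the run. -/
def Iv (Q : ℕ) (S : List (List ℕ)) (s : St) : Prop := Inv Q S s ∧ s.1.length ≤ S.flatten.length

theorem iv_s0 (Q : ℕ) (S : List (List ℕ)) : Iv Q S (s0 S) :=
  ⟨inv_s0 Q S, by simp [s0]⟩

theorem stepX_cases (asg : List Unit × List (List ℕ) → List ℕ) (K Q : ℕ) (S : List (List ℕ))
    (s : St) : (stepX asg K Q S s = s ∧ Term asg K Q S s) ∨
      (stepX asg K Q S s ∈ cands asg K Q S s ∧ meas S (stepX asg K Q S s) < meas S s) := by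
  unfold stepX
  rcases h : (cands asg K Q S s).find? (fun s' => decide (meas S s' < meas S s)) with _ | s'
  · left
    refine ⟨rfl, fun s' hs' => ?_⟩
    rw [List.find?_eq_none] at h
    have := h s' hs'
    simpa using this
  · right
    refine ⟨List.mem_of_find?_eq_some h, ?_⟩
    have := List.find?_some h
    simpa using this

theorem iv_step {asg : List Unit × List (List ℕ) → List ℕ} (ha : AsgOk asg) {K Q : ℕ}
    {S : List (List ℕ)} {s : St} (hS : S.Nodup) (h : Iv Q S s) : Iv Q S (stepX asg K Q S s) := by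
  rcases stepX_cases asg K Q S s with h1 | h1
  · rw [h1.1]; exact h
  · exact ⟨inv_cands ha hS h.1 _ h1.1, len_cands h.2 _ h1.1 h1.2⟩

theorem iv_iter {asg : List Unit × List (List ℕ) → List ℕ} (ha : AsgOk asg) {K Q : ℕ}
    {S : List (List ℕ)} (hS : S.Nodup) (n : ℕ) : Iv Q S ((stepX asg K Q S)^[n] (s0 S)) := by
  induction n with
  | zero => exact iv_s0 Q S
  | succ n ih => rw [Function.iterate_succ_apply']; exact iv_step ha hS ih

theorem meas_s0 (S : List (List ℕ)) : meas S (s0 S) < bdX S := by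
  have h1 : cC (s0 S) ≤ S.flatten.length := by
    unfold cC s0
    rw [List.map_map]
    refine (sum_map_le_sum S _ List.length fun x _ => ?_).trans (by rw [List.length_flatten])
    have := dW_le (dU []) [x]
    simpa using this
  have h2 : phi (s0 S) ≤ 8 * S.flatten.length := by
    unfold phi
    have : penU (s0 S).1 = 0 := rfl
    omega
  have h3 : phi (s0 S) * (S.length + 1) ≤ 8 * S.flatten.length * (S.length + 1) :=
    Nat.mul_le_mul_right _ h2
  have h4 : (s0 S).2.length = S.length := by simp [s0]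
  have h5 : (s0 S).1.length = 0 := rfl
  unfold meas bdX
  rw [h4, h5, Nat.sub_zero]
  omega

theorem runX_spec {asg : List Unit × List (List ℕ) → List ℕ} (ha : AsgOk asg) (K Q : ℕ)
    {S : List (List ℕ)} (hS : S.Nodup) :
    Inv Q S (runX asg K Q S) ∧ Term asg K Q S (runX asg K Q S) := by
  have h0 : runX asg K Q S = (stepX asg K Q S)^[bdX S] (s0 S) := by
    unfold runX
    rw [fx_eq hS]
    exact iter_of_foldl _ _ _
  rw [h0]
  refine ⟨(iv_iter ha hS _).1, ?_⟩
  have h1 : stepX asg K Q S ((stepX asg K Q S)^[bdX S] (s0 S)) =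
      (stepX asg K Q S)^[bdX S] (s0 S) := by
    refine iter_fixed _ (meas S) (fun s => ?_) _ _ (meas_s0 S)
    rcases stepX_cases asg K Q S s with h | h
    · exact Or.inl h.1
    · exact Or.inr h.2
  rcases stepX_cases asg K Q S ((stepX asg K Q S)^[bdX S] (s0 S)) with h | h
  · exact h.2
  · rw [h1] at h
    exact absurd h.2 (lt_irrefl _)

theorem nodup_of_sfree {S : List (List ℕ)} (h : Sfree S) : S.Nodup :=
  h.2.imp fun {a b} hab h' => hab.1 (by rw [h'])

/-! ### Sizes -/

theorem perC_le (c : List (List ℕ)) : perC c ≤ cycW c + 1 := by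
  unfold perC
  rcases h : (List.range (cycW c)).find? (fun q =>
    decide (((mergeL c).take (cycW c)).rotate (q + 1) = (mergeL c).take (cycW c))) with _ | q
  · simp
  · have h1 := List.mem_of_find?_eq_some h
    rw [List.mem_range] at h1
    simp only [Option.getD_some]
    omega

theorem perC_le_len {S c : List (List ℕ)} (h : BigOk S c) : perC c ≤ S.flatten.length := by
  obtain ⟨x, r, rfl⟩ : ∃ x r, c = x :: r := List.exists_cons_of_ne_nil h.ne
  obtain ⟨a, ha⟩ : ∃ a, a ∈ cprs [] (x :: r) := by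
    have : ((cprs [] (x :: r)).map Prod.fst) = x :: r := prs_fst _ _
    rcases hl : cprs [] (x :: r) with _ | ⟨a, l⟩
    · rw [hl] at this
      simp at this
    · exact ⟨a, by simp⟩
  have h1 := h.big a ha
  have h2 := G.ov_le_left a.1 a.2
  have h3 := perC_le (x :: r)
  have h4 : a.1 ∈ x :: r := by
    have h5 : ((cprs [] (x :: r)).map Prod.fst) = x :: r := prs_fst _ _
    rw [← h5]
    exact List.mem_map_of_mem ha
  have h6 : a.1.length ≤ S.flatten.length := by
    rw [List.length_flatten]
    exact List.single_le_sum (by simp) _ (List.mem_map_of_mem (h.sub _ h4))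
  omega

end Vale.Agent.P333.X.RunX
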